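import Mathlib

/-!
A free group of rank three inside the integral two by two matrices, and its reductions modulo a
large integer, in which short reduced words evaluate injectively.
-/

namespace Vale.Agent.P090

open Finset Matrix

/-- Letters: a generator index and an orientation. -/
abbrev Lt := Fin 3 × Bool

/-- The inverse letter. -/
def flipL (a : Lt) : Lt := (a.1, !a.2)

lemma flipL_flipL (a : Lt) : flipL (flipL a) = a := by simp [flipL]

/-- The sign of a letter. -/
def sgn (s : Bool) : ℤ := if s then 1 else -1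

/-- The matrix `b ^ i * a ^ e * b ^ (-i)` for `a = [[1, 2], [0, 1]]` and `b = [[1, 0], [2, 1]]`. -/
def mat (i e : ℤ) : Matrix (Fin 2) (Fin 2) ℤ :=
  !![1 - 4 * e * i, 2 * e; -(8 * i * i * e), 1 + 4 * e * i]

lemma mat_mul (i e : ℤ) : mat i e * mat i (-e) = 1 := by
  ext a b
  fin_cases a <;> fin_cases b <;> simp [mat] <;> ring

/-- The integral matrix of a letter. -/
def genZ (a : Lt) : (Matrix (Fin 2) (Fin 2) ℤ)ˣ where
  val := mat a.1.val (sgn a.2)
  inv := mat a.1.val (-sgn a.2)
  val_inv := mat_mul _ _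
  inv_val := by simpa using mat_mul (a.1.val : ℤ) (-sgn a.2)

lemma genZ_flipL (a : Lt) : genZ (flipL a) = (genZ a)⁻¹ := by
  obtain ⟨i, s⟩ := a
  apply Units.ext
  cases s <;> simp [genZ, flipL, sgn]

/-- The product of the matrices of a word. -/
def prodZ (w : List Lt) : Matrix (Fin 2) (Fin 2) ℤ := ((w.map genZ).prod :)

/-- A word without a letter followed by its inverse. -/
def Reduced (w : List Lt) : Prop := w.IsChain fun a b ↦ b ≠ flipL a

/-- The ping-pong invariant of the second column, after a word starting with the letter `a`. -/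
def Pong (a : Lt) (x y : ℤ) : Prop :=
  ∃ m : ℤ, 1 ≤ m ∧ |x - 2 * m * sgn a.2 * (y - 2 * a.1.val * x)| < |y - 2 * a.1.val * x|

lemma abs_sgn (s : Bool) : |sgn s| = 1 := by cases s <;> rfl

lemma prodZ_cons (a : Lt) (w : List Lt) : prodZ (a :: w) = mat a.1.val (sgn a.2) * prodZ w := by
  simp [prodZ, genZ]

lemma prodZ_col (a : Lt) (w : List Lt) :
    prodZ (a :: w) 0 1 = (1 - 4 * sgn a.2 * a.1.val) * prodZ w 0 1 + 2 * sgn a.2 * prodZ w 1 1 ∧
      prodZ (a :: w) 1 1 = -(8 * a.1.val * a.1.val * sgn a.2) * prodZ w 0 1 +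
        (1 + 4 * sgn a.2 * a.1.val) * prodZ w 1 1 := by
  constructor <;> simp [prodZ_cons, mat, Matrix.mul_apply, Fin.sum_univ_two]

lemma pong_of_reduced : ∀ (w : List Lt) (a : Lt), Reduced (a :: w) →
    Pong a (prodZ (a :: w) 0 1) (prodZ (a :: w) 1 1) := by
  intro w
  induction w with
  | nil =>
    intro a _
    obtain ⟨h0, h1⟩ := prodZ_col a []
    refine ⟨1, le_refl 1, ?_⟩
    have e0 : prodZ [] 0 1 = 0 := by simp [prodZ]
    have e1 : prodZ [] 1 1 = 1 := by simp [prodZ]
    rw [h0, h1, e0, e1]
    ring_nf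
    simp
  | cons b w ih =>
    intro a hr
    rw [Reduced, List.isChain_cons_cons] at hr
    obtain ⟨m, hm, hlt⟩ := ih b hr.2
    obtain ⟨h0, h1⟩ := prodZ_col a (b :: w)
    set x := prodZ (b :: w) 0 1
    set y := prodZ (b :: w) 1 1
    rw [h0, h1]
    by_cases hi : b.1 = a.1
    · have hs : b.2 = a.2 := by
        by_contra hs
        refine hr.1 (Prod.ext hi ?_)
        change b.2 = !a.2
        revert hs
        cases b.2 <;> cases a.2 <;> simp
      refine ⟨m + 1, by linarith, ?_⟩
      rw [hi, hs] at hlt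
      convert hlt using 2 <;> ring
    · refine ⟨1, le_refl 1, ?_⟩
      have hd : (1 : ℤ) ≤ |(b.1.val : ℤ) - a.1.val| := by
        refine Int.one_le_abs (sub_ne_zero.2 ?_)
        exact_mod_cast fun h ↦ hi (Fin.ext h)
      have hx : |y - 2 * b.1.val * x| < |x| := by
        have hz : |2 * m * sgn b.2 * (y - 2 * b.1.val * x)| ≤
            |x| + |x - 2 * m * sgn b.2 * (y - 2 * b.1.val * x)| := by
          simpa using abs_sub x (x - 2 * m * sgn b.2 * (y - 2 * b.1.val * x))
        rw [abs_mul, abs_mul, abs_mul, abs_sgn, abs_of_pos (by linarith : (0 : ℤ) < m),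
          abs_two, mul_one] at hz
        nlinarith [abs_nonneg (y - 2 * b.1.val * x)]
      have hy : |x| < |y - 2 * a.1.val * x| := by
        have hz : |2 * ((b.1.val : ℤ) - a.1.val) * x| ≤
            |y - 2 * a.1.val * x| + |y - 2 * b.1.val * x| := by
          refine le_trans (le_of_eq ?_) (abs_sub _ _)
          congr 1; ring
        rw [abs_mul, abs_mul, abs_two] at hz
        nlinarith [abs_nonneg x]
      refine lt_of_eq_of_lt ?_ (hy.trans_eq ?_) <;> congr 1 <;> ring

/-- Reduced nonempty words are nontrivial over the integers. -/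
theorem prodZ_ne_one {w : List Lt} (hr : Reduced w) (hne : w ≠ []) : prodZ w ≠ 1 := by
  obtain ⟨a, w, rfl⟩ := List.exists_cons_of_ne_nil hne
  intro h
  obtain ⟨m, hm, hlt⟩ := pong_of_reduced w a hr
  rw [h] at hlt
  simp [abs_mul, abs_sgn, abs_of_pos (by linarith : (0 : ℤ) < m)] at hlt
  linarith

lemma abs_mat_row (a : Lt) (r : Fin 2) :
    |mat a.1.val (sgn a.2) r 0| + |mat a.1.val (sgn a.2) r 1| ≤ 64 := by
  obtain ⟨i, s⟩ := a
  fin_cases i <;> cases s <;> fin_cases r <;> simp [mat, sgn]

lemma abs_prodZ_le (w : List Lt) : ∀ r c, |prodZ w r c| ≤ 64 ^ w.length := by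
  induction w with
  | nil => intro r c; fin_cases r <;> fin_cases c <;> simp [prodZ]
  | cons a w ih =>
    intro r c
    rw [prodZ_cons, Matrix.mul_apply, Fin.sum_univ_two, List.length_cons, pow_succ']
    refine (abs_add_le _ _).trans ?_
    rw [abs_mul, abs_mul]
    have h := mul_le_mul_of_nonneg_right (abs_mat_row a r) (pow_nonneg (by norm_num : (0:ℤ) ≤ 64)
      w.length)
    nlinarith [mul_le_mul_of_nonneg_left (ih 0 c) (abs_nonneg (mat a.1.val (sgn a.2) r 0)),
      mul_le_mul_of_nonneg_left (ih 1 c) (abs_nonneg (mat a.1.val (sgn a.2) r 1))]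

/-- The modulus for girth parameter `g`. -/
def modulus (g : ℕ) : ℕ := 64 ^ (2 * g) + 2

instance (g : ℕ) : NeZero (modulus g) := ⟨Nat.succ_ne_zero _⟩

/-- The finite group for girth parameter `g`. -/
abbrev Grp (g : ℕ) := (Matrix (Fin 2) (Fin 2) (ZMod (modulus g)))ˣ

/-- The generators of the finite group. -/
def gen (g : ℕ) (a : Lt) : Grp g :=
  Units.map ((Int.castRingHom (ZMod (modulus g))).mapMatrix (m := Fin 2)).toMonoidHom (genZ a)

lemma gen_flipL (g : ℕ) (a : Lt) : gen g (flipL a) = (gen g a)⁻¹ := by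
  rw [gen, genZ_flipL, map_inv, gen]

lemma card_grp_le (g : ℕ) : Fintype.card (Grp g) ≤ modulus g ^ 4 := by
  refine (Fintype.card_le_of_injective _ Units.val_injective).trans (le_of_eq ?_)
  change Fintype.card (Fin 2 → Fin 2 → ZMod (modulus g)) = _
  rw [Fintype.card_fun, Fintype.card_fun, ZMod.card, Fintype.card_fin, ← pow_mul]

/-- The value of a word in the finite group. -/
def evalW (g : ℕ) (w : List Lt) : Grp g := (w.map (gen g)).prod

lemma evalW_ne_one {g : ℕ} {w : List Lt} (hr : Reduced w) (hne : w ≠ [])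
    (hl : w.length ≤ 2 * g) : evalW g w ≠ 1 := by
  intro h
  refine prodZ_ne_one hr hne (Matrix.ext fun r c ↦ ?_)
  have e : evalW g w =
      Units.map ((Int.castRingHom (ZMod (modulus g))).mapMatrix (m := Fin 2)).toMonoidHom
        (w.map genZ).prod := by
    rw [map_list_prod, List.map_map]; rfl
  have h' : ((prodZ w r c : ℤ) : ZMod (modulus g)) = ((1 : Matrix (Fin 2) (Fin 2) ℤ) r c : ℤ) := by
    have := congr_arg (fun u : Grp g ↦ (u : Matrix (Fin 2) (Fin 2) (ZMod (modulus g))) r c) (e.symm.trans h)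
    refine Eq.trans ?_ (this.trans ?_)
    · rfl
    · simp only [Units.val_one, Matrix.one_apply]
      split_ifs <;> simp
  rw [ZMod.intCast_eq_intCast_iff_dvd_sub] at h'
  have hb : |(1 : Matrix (Fin 2) (Fin 2) ℤ) r c - prodZ w r c| < (modulus g : ℤ) := by
    refine (abs_sub _ _).trans_lt ?_
    have h1 : |(1 : Matrix (Fin 2) (Fin 2) ℤ) r c| ≤ 1 := by
      rw [Matrix.one_apply]; split_ifs <;> simp
    have h2 : (64 : ℤ) ^ w.length ≤ 64 ^ (2 * g) := pow_le_pow_right₀ (by norm_num) hl
    have h3 := abs_prodZ_le w r c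
    simp only [modulus, Nat.cast_add, Nat.cast_pow, Nat.cast_ofNat]
    linarith
  exact (sub_eq_zero.1 (Int.eq_zero_of_abs_lt_dvd h' hb)).symm

lemma evalW_cons (g : ℕ) (a : Lt) (w : List Lt) : evalW g (a :: w) = gen g a * evalW g w := by
  simp [evalW]

/-- The reversed word of inverse letters. -/
def invW (w : List Lt) : List Lt := (w.map flipL).reverse

lemma evalW_invW (g : ℕ) (w : List Lt) : evalW g (invW w) = (evalW g w)⁻¹ := by
  rw [evalW, evalW, invW, List.map_reverse, List.map_map, List.prod_inv_reverse, List.map_map]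
  congr 2
  exact List.map_congr_left fun a _ ↦ gen_flipL g a

lemma reduced_invW {w : List Lt} (hr : Reduced w) : Reduced (invW w) := by
  rw [Reduced, invW, List.isChain_reverse, List.isChain_map]
  refine hr.imp fun a b hab h ↦ hab ?_
  have h' := congr_arg flipL h
  rw [flipL_flipL, flipL_flipL] at h'
  rw [h', flipL_flipL]

lemma reduced_join {w w' : List Lt} {a b : Lt} (hr : Reduced (a :: w)) (hr' : Reduced (b :: w'))
    (hab : a ≠ b) : Reduced (invW (a :: w) ++ b :: w') := by
  rw [Reduced, List.isChain_append]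
  refine ⟨reduced_invW hr, hr', ?_⟩
  intro x hx y hy
  simp [invW] at hx hy
  subst hx hy
  rw [flipL_flipL]
  exact hab.symm

/-- Short reduced words have distinct values. -/
theorem evalW_inj {g : ℕ} : ∀ (w w' : List Lt), Reduced w → Reduced w' → w.length ≤ g →
    w'.length ≤ g → evalW g w = evalW g w' → w = w' := by
  intro w
  induction w with
  | nil =>
    intro w' _ hr' _ hl' h
    by_contra hne
    exact evalW_ne_one (g := g) hr' (Ne.symm hne) (by omega) (by rw [← h]; rfl)
  | cons a w ih =>
    intro w' hr hr' hl hl' h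
    cases w' with
    | nil => exact absurd (h.trans rfl) (evalW_ne_one (g := g) hr (by simp) (by omega))
    | cons b w' =>
      by_cases hab : a = b
      · subst hab
        rw [evalW_cons, evalW_cons, mul_right_inj] at h
        simp only [List.length_cons] at hl hl'
        rw [ih w' (List.IsChain.tail hr) (List.IsChain.tail hr') (by omega) (by omega) h]
      · refine absurd ?_ (evalW_ne_one (g := g) (reduced_join hr hr' hab) (by simp) ?_)
        · rw [evalW, List.map_append, List.prod_append]
          rw [← evalW, ← evalW, evalW_invW, h, inv_mul_cancel]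
        · simp [invW] at hl hl' ⊢
          omega

end Vale.Agent.P090
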