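import Mathlib
import Vale.Agent.P090.Sanov

/-!
Coloured systems with six moves, the capped move distance, the code of a point, and the metric
that glues all the blocks through the space of codes.
-/

namespace Vale.Agent.P090

open Finset

/-- Gluing distance. -/
@[irreducible] def Lc (lam : ℕ) : ℕ := 48 * (lam + 2)

/-- Amplification of the approximation bound. -/
@[irreducible] def Ac (lam : ℕ) : ℕ := (lam + 4) * Lc lam

/-- Radius of a cluster. -/
@[irreducible] def Jc (lam : ℕ) : ℕ := 2 * Lc lam * Ac lam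

/-- Range of the local isometry. -/
@[irreducible] def Rc (lam : ℕ) : ℕ := 8 * Jc lam

/-- Cap of the move distance. -/
@[irreducible] def capc (lam : ℕ) : ℕ := Lc lam + 2 * Rc lam + 1

/-- Number of colours of the proper colouring. -/
@[irreducible] def nA (lam : ℕ) : ℕ := 7 ^ (2 * Rc lam) + 1

/-- Number of choices for one tree edge. -/
@[irreducible] def kap (lam : ℕ) : ℕ := 6 * 7 ^ (9 * Jc lam)

/-- Number of labels. -/
@[irreducible] def nB (lam : ℕ) : ℕ := 2 * kap lam

/-- The colours. -/
abbrev Col (lam : ℕ) := Fin (nA lam) × Fin (nB lam)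

lemma Lc_pos (lam : ℕ) : 0 < Lc lam := by unfold Lc; omega

lemma nB_pos (lam : ℕ) : 0 < nB lam := by unfold nB kap; positivity

lemma nA_pos (lam : ℕ) : 0 < nA lam := by unfold nA; positivity

/-- Follow a word of moves. -/
def move {P : Type} (mv : P → Lt → P) (p : P) (w : List Lt) : P := w.foldl mv p

lemma move_append {P : Type} (mv : P → Lt → P) (p : P) (w w' : List Lt) :
    move mv p (w ++ w') = move mv (move mv p w) w' := List.foldl_append

lemma move_invW {P : Type} {mv : P → Lt → P} (hb : ∀ p a, mv (mv p a) (flipL a) = p) :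
    ∀ (w : List Lt) (p : P), move mv (move mv p w) (invW w) = p := by
  intro w
  induction w with
  | nil => intro p; rfl
  | cons a w ih =>
    intro p
    have e : invW (a :: w) = invW w ++ [flipL a] := by simp [invW]
    rw [e, move_append]
    exact (congr_arg (fun z ↦ mv z (flipL a)) (ih (mv p a))).trans (hb p a)

/-- The points reached by words of bounded length. -/
noncomputable def reach {P : Type} (mv : P → Lt → P) : ℕ → P → Finset P
  | 0, p => {p}
  | r + 1, p => by
    classical
    exact reach mv r p ∪ (reach mv r p ×ˢ (univ : Finset Lt)).image fun z ↦ mv z.1 z.2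

lemma card_reach_le {P : Type} (mv : P → Lt → P) (r : ℕ) (p : P) :
    (reach mv r p).card ≤ 7 ^ r := by
  classical
  induction r with
  | zero => simp [reach]
  | succ r ih =>
    refine (card_union_le _ _).trans ?_
    refine (Nat.add_le_add ih (card_image_le.trans (le_of_eq (card_product _ _)))).trans ?_
    have : (univ : Finset Lt).card = 6 := rfl
    rw [this, pow_succ]
    omega

lemma reach_mono {P : Type} (mv : P → Lt → P) {r r' : ℕ} (h : r ≤ r') (p : P) :
    reach mv r p ⊆ reach mv r' p := by
  classical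
  induction h with
  | refl => exact subset_refl _
  | step _ ih => exact ih.trans subset_union_left

lemma move_mem_reach {P : Type} (mv : P → Lt → P) (p : P) (w : List Lt) :
    move mv p w ∈ reach mv w.length p := by
  classical
  induction w using List.reverseRecOn with
  | nil => simp [reach, move]
  | append_singleton w a ih =>
    rw [List.length_append, List.length_singleton, move_append]
    exact mem_union_right _ (mem_image.2 ⟨(_, a), mem_product.2 ⟨ih, mem_univ _⟩, rfl⟩)

/-- A coloured system of points with six moves. -/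
structure Sys (lam : ℕ) where
  P : Type
  mv : P → Lt → P
  back : ∀ p a, mv (mv p a) (flipL a) = p
  col : P → Col lam
  proper : ∀ p w, w.length ≤ 2 * Rc lam → col (move mv p w) = col p → move mv p w = p

variable {lam : ℕ} (S : Sys lam)

/-- The move distance, capped. -/
noncomputable def Sys.gd (p q : S.P) : ℕ :=
  sInf (insert (capc lam) {l | ∃ w : List Lt, w.length = l ∧ move S.mv p w = q})

/-- The code of a point: capped distances to the colour classes. -/
noncomputable def Sys.codeN (p : S.P) (c : Col lam) : ℕ :=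
  sInf (insert (Rc lam) {l | ∃ z, S.col z = c ∧ S.gd p z = l})

/-- The real code. -/
noncomputable def Sys.code (p : S.P) : Col lam → ℝ := fun c ↦ S.codeN p c

/-- The glued distance. -/
noncomputable def Sys.dd (p q : S.P) : ℝ :=
  min (S.gd p q : ℝ) (Lc lam + dist (S.code p) (S.code q))

variable {S}

lemma gd_le_cap (p q : S.P) : S.gd p q ≤ capc lam := Nat.sInf_le (Set.mem_insert _ _)

lemma gd_le_word (p : S.P) (w : List Lt) : S.gd p (move S.mv p w) ≤ w.length :=
  Nat.sInf_le (Set.mem_insert_of_mem _ ⟨w, rfl, rfl⟩)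

lemma gd_mem (p q : S.P) : S.gd p q = capc lam ∨
    ∃ w : List Lt, w.length = S.gd p q ∧ move S.mv p w = q := by
  have := Nat.sInf_mem (s := insert (capc lam)
    {l | ∃ w : List Lt, w.length = l ∧ move S.mv p w = q}) ⟨_, Set.mem_insert _ _⟩
  exact this

lemma exists_word {p q : S.P} (h : S.gd p q < capc lam) :
    ∃ w : List Lt, w.length = S.gd p q ∧ move S.mv p w = q :=
  (gd_mem p q).resolve_left h.ne

lemma gd_self (p : S.P) : S.gd p p = 0 := Nat.le_zero.1 (gd_le_word p [])

lemma eq_of_gd_eq_zero {p q : S.P} (h : S.gd p q = 0) : p = q := by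
  obtain ⟨w, hw, e⟩ := exists_word (lt_of_eq_of_lt h (by unfold capc; omega))
  rw [h, List.length_eq_zero_iff] at hw
  subst hw
  exact e

lemma gd_comm (p q : S.P) : S.gd p q = S.gd q p := by
  suffices ∀ p q, S.gd p q ≤ S.gd q p from le_antisymm (this p q) (this q p)
  intro p q
  rcases gd_mem q p with h | ⟨w, hw, rfl⟩
  · rw [h]; exact gd_le_cap p q
  · have := gd_le_word (move S.mv q w) (invW w)
    rw [move_invW S.back] at this
    refine this.trans ?_
    rw [← hw]
    simp [invW]

lemma gd_triangle (p q r : S.P) : S.gd p r ≤ S.gd p q + S.gd q r := by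
  rcases gd_mem p q with h | ⟨w, hw, rfl⟩
  · rw [h]; exact (gd_le_cap p r).trans (Nat.le_add_right _ _)
  rcases gd_mem (move S.mv p w) r with h | ⟨w', hw', rfl⟩
  · rw [h]; exact (gd_le_cap p r).trans (Nat.le_add_left _ _)
  rw [← hw, ← hw', ← move_append, ← List.length_append]
  exact gd_le_word p _

lemma codeN_le (p : S.P) (c : Col lam) : S.codeN p c ≤ Rc lam := Nat.sInf_le (Set.mem_insert _ _)

lemma codeN_le_gd (p z : S.P) : S.codeN p (S.col z) ≤ S.gd p z :=
  Nat.sInf_le (Set.mem_insert_of_mem _ ⟨z, rfl, rfl⟩)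

lemma codeN_mem (p : S.P) (c : Col lam) : S.codeN p c = Rc lam ∨
    ∃ z, S.col z = c ∧ S.gd p z = S.codeN p c := by
  have := Nat.sInf_mem (s := insert (Rc lam) {l | ∃ z, S.col z = c ∧ S.gd p z = l})
    ⟨_, Set.mem_insert _ _⟩
  exact this

lemma codeN_self (p : S.P) : S.codeN p (S.col p) = 0 :=
  Nat.le_zero.1 ((codeN_le_gd p p).trans (gd_self p).le)

lemma codeN_le_add (p q : S.P) (c : Col lam) : S.codeN p c ≤ S.gd p q + S.codeN q c := by
  rcases codeN_mem q c with h | ⟨z, rfl, hz⟩
  · rw [h]; exact (codeN_le p c).trans (Nat.le_add_left _ _)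
  · rw [← hz]; exact (codeN_le_gd p z).trans (gd_triangle p q z)

lemma code_dist_le_gd (p q : S.P) : dist (S.code p) (S.code q) ≤ S.gd p q := by
  rw [dist_pi_le_iff (Nat.cast_nonneg _)]
  intro c
  rw [Real.dist_eq, abs_sub_le_iff]
  have h1 : (S.codeN p c : ℝ) ≤ S.gd p q + S.codeN q c := by exact_mod_cast codeN_le_add p q c
  have h2 : (S.codeN q c : ℝ) ≤ S.gd p q + S.codeN p c := by
    exact_mod_cast gd_comm q p ▸ codeN_le_add q p c
  constructor <;> simp only [Sys.code] <;> linarith

lemma code_dist_le (p q : S.P) : dist (S.code p) (S.code q) ≤ Rc lam := by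
  rw [dist_pi_le_iff (Nat.cast_nonneg _)]
  intro c
  rw [Real.dist_eq, abs_sub_le_iff]
  have h1 : (S.codeN p c : ℝ) ≤ Rc lam := by exact_mod_cast codeN_le p c
  have h2 : (S.codeN q c : ℝ) ≤ Rc lam := by exact_mod_cast codeN_le q c
  constructor <;> simp only [Sys.code] <;>
    linarith [(Nat.cast_nonneg _ : (0 : ℝ) ≤ S.codeN p c),
      (Nat.cast_nonneg _ : (0 : ℝ) ≤ S.codeN q c)]

/-- Inside the range of the proper colouring the code is an isometry. -/
lemma gd_le_code_dist {p q : S.P} (h : S.gd p q ≤ Rc lam) :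
    (S.gd p q : ℝ) ≤ dist (S.code p) (S.code q) := by
  refine le_trans ?_ (dist_le_pi_dist _ _ (S.col p))
  rw [Real.dist_eq]
  simp only [Sys.code, codeN_self, Nat.cast_zero, zero_sub, abs_neg, Nat.abs_cast, Nat.cast_le]
  rcases codeN_mem q (S.col p) with h' | ⟨z, hz, hzd⟩
  · exact h'.symm ▸ h
  rcases le_or_gt (S.gd p z) (2 * Rc lam) with h2 | h2
  · obtain ⟨w, hw, rfl⟩ := exists_word (show S.gd p z < capc lam by unfold capc; omega)
    rw [S.proper p w (hw ▸ h2) hz] at hzd
    rw [gd_comm p q, hzd]
  · have := gd_triangle p q z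
    omega

lemma dd_le_gd (p q : S.P) : S.dd p q ≤ S.gd p q := min_le_left _ _

lemma dd_le (p q : S.P) : S.dd p q ≤ Lc lam + dist (S.code p) (S.code q) := min_le_right _ _

lemma code_dist_le_dd (p q : S.P) : dist (S.code p) (S.code q) ≤ S.dd p q :=
  le_min (code_dist_le_gd p q) (le_add_of_nonneg_left (Nat.cast_nonneg _))

lemma one_le_dd {p q : S.P} (h : p ≠ q) : 1 ≤ S.dd p q := by
  have h1 : 1 ≤ S.gd p q := Nat.one_le_iff_ne_zero.2 fun h0 ↦ h (eq_of_gd_eq_zero h0)
  refine le_min (by exact_mod_cast h1) (le_add_of_le_of_nonneg ?_ dist_nonneg)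
  exact_mod_cast Lc_pos lam

/-- Points that are not close by moves are far apart. -/
lemma le_dd_of_lt_gd {p q : S.P} (h : Lc lam ≤ S.gd p q) : (Lc lam : ℝ) ≤ S.dd p q :=
  le_min (by exact_mod_cast h) (le_add_of_nonneg_right dist_nonneg)

lemma dd_triangle (p q r : S.P) : S.dd p r ≤ S.dd p q + S.dd q r := by
  rcases le_total (S.gd p q : ℝ) (Lc lam + dist (S.code p) (S.code q)) with h | h
  · rcases le_total (S.gd q r : ℝ) (Lc lam + dist (S.code q) (S.code r)) with h' | h'
    · rw [Sys.dd, Sys.dd, Sys.dd, min_eq_left h, min_eq_left h']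
      exact (min_le_left _ _).trans (by exact_mod_cast gd_triangle p q r)
    · have e : S.dd q r = Lc lam + dist (S.code q) (S.code r) := min_eq_right h'
      linarith [dd_le p r, code_dist_le_dd p q, dist_triangle (S.code p) (S.code q) (S.code r)]
  · have e : S.dd p q = Lc lam + dist (S.code p) (S.code q) := min_eq_right h
    linarith [dd_le p r, code_dist_le_dd q r, dist_triangle (S.code p) (S.code q) (S.code r)]

noncomputable instance : MetricSpace S.P where
  dist := S.dd
  dist_self p := le_antisymm ((dd_le_gd p p).trans (by simp [gd_self]))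
    (le_min (Nat.cast_nonneg _) (add_nonneg (Nat.cast_nonneg _) dist_nonneg))
  dist_comm p q := by simp only [Sys.dd, gd_comm p q, dist_comm (S.code p)]
  dist_triangle := dd_triangle
  eq_of_dist_eq_zero {p q} h := by
    by_contra hne
    linarith [one_le_dd hne, h.le]

lemma dist_def (p q : S.P) : dist p q = S.dd p q := rfl

lemma code_dist_le_dist (p q : S.P) : dist (S.code p) (S.code q) ≤ dist p q :=
  code_dist_le_dd p q

lemma dist_le_bound (p q : S.P) : dist p q ≤ (Lc lam : ℝ) + Rc lam :=
  (dd_le p q).trans (add_le_add le_rfl (code_dist_le p q))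

/-- Finitely many points represent every code. -/
lemma exists_reps (S : Sys lam) : ∃ E : Finset S.P, ∀ p, ∃ e ∈ E, S.code e = S.code p := by
  classical
  let f : S.P → Col lam → Fin (Rc lam + 1) := fun p c ↦ ⟨S.codeN p c, Nat.lt_succ_of_le (codeN_le p c)⟩
  have hf : (Set.range f).Finite := Set.toFinite _
  choose e he using fun φ : Set.range f ↦ φ.2
  have : Fintype (Set.range f) := hf.fintype
  refine ⟨univ.image e, fun p ↦ ⟨e ⟨f p, p, rfl⟩, mem_image_of_mem _ (mem_univ _), ?_⟩⟩
  ext c
  have h := congr_fun (he ⟨f p, p, rfl⟩) c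
  simp only [Sys.code, Nat.cast_inj]
  exact congr_arg Fin.val h

end Vale.Agent.P090
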