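import Mathlib
import Vale.Agent.P090.Sanov
import Vale.Agent.P090.Code

/-!
The blocks, their proper colouring, and labels under which no branching pattern of a block agrees
with the earlier blocks.
-/

namespace Vale.Agent.P090

open Finset

section Proper

variable {Y : Type} {mv : Y → Lt → Y} (hb : ∀ y a, mv (mv y a) (flipL a) = y)

include hb in
lemma exists_proper [Fintype Y] (r N : ℕ) (hN : 7 ^ r < N) :
    ∃ f : Y → Fin N, ∀ y w, w.length ≤ r → f (move mv y w) = f y → move mv y w = y := by
  classical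
  suffices h : ∀ s : Finset Y, ∃ f : Y → Fin N, ∀ y ∈ s, ∀ w : List Lt, w.length ≤ r →
      move mv y w ∈ s → f (move mv y w) = f y → move mv y w = y by
    obtain ⟨f, hf⟩ := h univ
    exact ⟨f, fun y w hw ↦ hf y (mem_univ _) w hw (mem_univ _)⟩
  intro s
  induction s using Finset.induction with
  | empty => exact ⟨fun _ ↦ ⟨0, Nat.lt_of_le_of_lt (Nat.zero_le _) hN⟩, by simp⟩
  | insert y0 s hy0 ih =>
    obtain ⟨f, hf⟩ := ih
    obtain ⟨c, hc⟩ : ∃ c, c ∉ (reach mv r y0).image f := by
      by_contra h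
      push Not at h
      have := card_le_card (fun c _ ↦ h c : (univ : Finset (Fin N)) ⊆ (reach mv r y0).image f)
      rw [card_univ, Fintype.card_fin] at this
      have := this.trans (card_image_le.trans (card_reach_le mv r y0))
      omega
    have hmem : ∀ w : List Lt, w.length ≤ r → move mv y0 w ∈ reach mv r y0 := fun w hw ↦
      reach_mono mv hw y0 (move_mem_reach mv y0 w)
    refine ⟨Function.update f y0 c, fun y hy w hw hz he ↦ ?_⟩
    rcases eq_or_ne y y0 with rfl | hne
    · by_contra hne'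
      rw [Function.update_of_ne hne', Function.update_self] at he
      exact hc (he ▸ mem_image_of_mem _ (hmem w hw))
    · rw [Function.update_of_ne hne] at he
      rcases eq_or_ne (move mv y w) y0 with h0 | hne'
      · rw [h0, Function.update_self] at he
        have := hmem (invW w) (by simpa [invW] using hw)
        rw [← h0, move_invW hb] at this
        exact absurd (he ▸ mem_image_of_mem f (h0 ▸ this)) hc
      · rw [Function.update_of_ne hne'] at he
        exact hf y ((mem_insert.1 hy).resolve_left hne) w hw ((mem_insert.1 hz).resolve_left hne') he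

end Proper

section Pattern

variable {Y P : Type}

open Classical in
/-- One step of a pattern. -/
noncomputable def steps (act : Y → Lt → Y) (mv : P → Lt → P) (r : ℕ) (z : Y × P) :
    Finset (Y × P) :=
  univ.biUnion fun a : Lt ↦ (reach mv r z.2).image fun q ↦ (act z.1 a, q)

open Classical in
/-- Binary patterns of a given depth. -/
noncomputable def pat (act : Y → Lt → Y) (mv : P → Lt → P) (r : ℕ) :
    ℕ → Y × P → Finset (List (Y × P))
  | 0, z => {[z]}
  | g + 1, z => ((steps act mv r z).biUnion (pat act mv r g) ×ˢ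
      (steps act mv r z).biUnion (pat act mv r g)).image fun l ↦ z :: (l.1 ++ l.2)

lemma length_pat {act : Y → Lt → Y} {mv : P → Lt → P} {r : ℕ} :
    ∀ (g : ℕ) (z : Y × P) (l : List (Y × P)), l ∈ pat act mv r g z →
      l.length + 1 = 2 ^ (g + 1) := by
  classical
  intro g
  induction g with
  | zero => intro z l hl; simp only [pat, mem_singleton] at hl; simp [hl]
  | succ g ih =>
    intro z l hl
    simp only [pat, mem_image, mem_product, mem_biUnion] at hl
    obtain ⟨⟨l0, l1⟩, ⟨⟨z0, -, h0⟩, z1, -, h1⟩, rfl⟩ := hl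
    have h0 := ih z0 l0 h0
    have h1 := ih z1 l1 h1
    simp only [List.length_cons, List.length_append, pow_succ] at h0 h1 ⊢
    omega

lemma card_steps_le (act : Y → Lt → Y) (mv : P → Lt → P) (r : ℕ) (z : Y × P) :
    (steps act mv r z).card ≤ 6 * 7 ^ r := by
  classical
  refine card_biUnion_le.trans ((sum_le_card_nsmul _ _ (7 ^ r) fun a _ ↦
    card_image_le.trans (card_reach_le mv r z.2)).trans (le_of_eq ?_))
  simp

lemma card_pat_le (act : Y → Lt → Y) (mv : P → Lt → P) (r : ℕ) :
    ∀ (g : ℕ) (z : Y × P), (pat act mv r g z).card ≤ (6 * 7 ^ r) ^ (2 ^ (g + 1) - 2) := by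
  classical
  intro g
  induction g with
  | zero => intro z; simp [pat]
  | succ g ih =>
    intro z
    have h1 : ((steps act mv r z).biUnion (pat act mv r g)).card ≤
        6 * 7 ^ r * (6 * 7 ^ r) ^ (2 ^ (g + 1) - 2) :=
      card_biUnion_le.trans ((sum_le_card_nsmul _ _ _ fun z' _ ↦ ih z').trans
        (Nat.mul_le_mul_right _ (card_steps_le act mv r z)))
    simp only [pat]
    refine card_image_le.trans ((card_product _ _).trans_le
      ((Nat.mul_le_mul h1 h1).trans (le_of_eq ?_)))
    rw [← pow_succ', ← pow_add]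
    congr 1
    have : 2 ≤ 2 ^ (g + 1) := Nat.le_self_pow (by omega) 2
    rw [pow_succ 2 (g + 1)]
    omega

/-- A union bound over patterns. -/
lemma exists_labelling [Fintype Y] {b s : ℕ} (hb : 0 < b) (pats : Finset (List (Y × P)))
    (lp : P → Fin b) (hlen : ∀ l ∈ pats, l.length = s) (hcard : pats.card < b ^ s) :
    ∃ lab : Y → Fin b, ∀ l ∈ pats, (l.map Prod.fst).Nodup → ∃ z ∈ l, lab z.1 ≠ lp z.2 := by
  classical
  set good := pats.filter fun l ↦ (l.map Prod.fst).Nodup
  rcases good.eq_empty_or_nonempty with he | ⟨l0, hl0⟩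
  · refine ⟨fun _ ↦ ⟨0, hb⟩, fun l hl hnd ↦ ?_⟩
    have : l ∈ good := mem_filter.2 ⟨hl, hnd⟩
    simp [he] at this
  have hs : ∀ l ∈ good, (l.map Prod.fst).toFinset.card = s := fun l hl ↦ by
    rw [List.toFinset_card_of_nodup (mem_filter.1 hl).2, List.length_map, hlen l (mem_filter.1 hl).1]
  have hsY : s ≤ Fintype.card Y := hs l0 hl0 ▸ card_le_univ _
  set badL : List (Y × P) → Finset (Y → Fin b) := fun l ↦
    univ.filter fun lab ↦ ∀ z ∈ l, lab z.1 = lp z.2
  have hbad : ∀ l ∈ good, (badL l).card ≤ b ^ (Fintype.card Y - s) := by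
    intro l hl
    set T := (l.map Prod.fst).toFinsetᶜ
    have hc : Fintype.card (T → Fin b) = b ^ (Fintype.card Y - s) := by
      rw [Fintype.card_fun, Fintype.card_fin, Fintype.card_coe, card_compl, hs l hl]
    rw [← hc, ← card_univ]
    refine card_le_card_of_injOn (fun lab (y : T) ↦ lab y.1) (fun _ _ ↦ mem_univ _)
      fun f hf f' hf' e ↦ funext fun y ↦ ?_
    simp only [badL, coe_filter, mem_univ, true_and, Set.mem_ofPred_eq] at hf hf'
    by_cases hy : y ∈ T
    · exact congr_fun e ⟨y, hy⟩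
    · simp only [T, mem_compl, not_not, List.mem_toFinset, List.mem_map] at hy
      obtain ⟨z, hz, rfl⟩ := hy
      rw [hf z hz, hf' z hz]
  have hlt : (good.biUnion badL).card < (univ : Finset (Y → Fin b)).card := by
    refine (card_biUnion_le.trans (sum_le_card_nsmul _ _ _ hbad)).trans_lt ?_
    rw [smul_eq_mul, card_univ, Fintype.card_fun, Fintype.card_fin]
    calc good.card * b ^ (Fintype.card Y - s) < b ^ s * b ^ (Fintype.card Y - s) :=
          Nat.mul_lt_mul_of_pos_right ((card_filter_le _ _).trans_lt hcard) (pow_pos hb _)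
      _ = b ^ Fintype.card Y := by rw [← pow_add, Nat.add_sub_cancel' hsY]
  obtain ⟨lab, -, hlab⟩ := exists_mem_notMem_of_card_lt_card hlt
  refine ⟨lab, fun l hl hnd ↦ ?_⟩
  by_contra h
  push Not at h
  exact hlab (mem_biUnion.2 ⟨l, mem_filter.2 ⟨hl, hnd⟩, by simpa [badL] using h⟩)

end Pattern

/-- The girth parameter of a block. -/
@[irreducible] def gs (n : ℕ) : ℕ := n + 10

/-- The blocks. -/
abbrev Yb (n : ℕ) := Grp (gs n)

/-- All points. -/
abbrev Pb := Σ n, Yb n

/-- The moves inside one block. -/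
def actY (n : ℕ) (y : Yb n) (a : Lt) : Yb n := y * gen (gs n) a

/-- The moves. -/
def mvP (p : Pb) (a : Lt) : Pb := ⟨p.1, actY p.1 p.2 a⟩

lemma actY_back (n : ℕ) (y : Yb n) (a : Lt) : actY n (actY n y a) (flipL a) = y := by
  simp [actY, gen_flipL]

lemma mvP_back (p : Pb) (a : Lt) : mvP (mvP p a) (flipL a) = p := by
  obtain ⟨n, y⟩ := p
  simp [mvP, actY_back]

lemma move_mvP : ∀ (w : List Lt) (n : ℕ) (y : Yb n),
    move mvP ⟨n, y⟩ w = ⟨n, move (actY n) y w⟩ := by
  intro w
  induction w with
  | nil => intro n y; rfl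
  | cons a w ih => intro n y; exact ih n (actY n y a)

open Classical in
/-- The points of earlier blocks. -/
noncomputable def earlier (n : ℕ) : Finset Pb :=
  (range n).biUnion fun m ↦ univ.image (Sigma.mk m)

lemma mem_earlier {n : ℕ} {p : Pb} : p ∈ earlier n ↔ p.1 < n := by
  obtain ⟨m, y⟩ := p
  constructor
  · intro h
    simp only [earlier, mem_biUnion, mem_range, mem_image] at h
    obtain ⟨k, hk, z, -, e⟩ := h
    exact (congr_arg Sigma.fst e) ▸ hk
  · intro h
    exact mem_biUnion.2 ⟨m, mem_range.2 h, mem_image_of_mem _ (mem_univ _)⟩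

lemma card_Yb_le (n : ℕ) : Fintype.card (Yb n) ≤ 2 ^ (48 * (n + 10) + 8) := by
  refine (card_grp_le _).trans ?_
  have hg : gs n = n + 10 := by unfold gs; rfl
  rw [hg]
  have h : modulus (n + 10) ≤ 2 ^ (12 * (n + 10) + 2) := by
    have e : (64 : ℕ) ^ (2 * (n + 10)) = 2 ^ (12 * (n + 10)) := by
      rw [show (64 : ℕ) = 2 ^ 6 by norm_num, ← pow_mul]; ring_nf
    unfold modulus
    rw [e, pow_add]
    have : 1 ≤ 2 ^ (12 * (n + 10)) := Nat.one_le_two_pow
    omega
  refine (Nat.pow_le_pow_left h 4).trans (le_of_eq ?_)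
  rw [← pow_mul]
  ring_nf

lemma exponent_lt (n : ℕ) : 97 * n + 978 ≤ 2 ^ (n + 11) := by
  induction n with
  | zero => norm_num
  | succ n ih =>
    rw [show n + 1 + 11 = n + 11 + 1 by ring, pow_succ]
    omega

/-- The patterns of a block against the earlier ones. -/
noncomputable def blockPats (lam n : ℕ) : Finset (List (Yb n × Pb)) := by
  classical
  exact ((univ : Finset (Yb n)) ×ˢ earlier n).biUnion (pat (actY n) mvP (9 * Jc lam) (gs n))

lemma card_blockPats_lt (lam n : ℕ) :
    (blockPats lam n).card < nB lam ^ (2 ^ (gs n + 1) - 1) := by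
  classical
  have hg : gs n = n + 10 := by unfold gs; rfl
  have hk : 6 * 7 ^ (9 * Jc lam) = kap lam := by unfold kap; rfl
  have h1 : (blockPats lam n).card ≤
      Fintype.card (Yb n) * (earlier n).card * kap lam ^ (2 ^ (gs n + 1) - 2) := by
    refine card_biUnion_le.trans ((sum_le_card_nsmul _ _ _ fun z _ ↦
      card_pat_le _ _ _ _ z).trans (le_of_eq ?_))
    rw [hk, smul_eq_mul, card_product, card_univ]
  have h2 : (earlier n).card ≤ n * 2 ^ (48 * (n + 10) + 8) := by
    refine card_biUnion_le.trans ((sum_le_card_nsmul _ _ (2 ^ (48 * (n + 10) + 8)) fun m hm ↦ ?_).trans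
      (le_of_eq (by simp)))
    refine card_image_le.trans ((card_univ (α := Yb m)).trans_le ((card_Yb_le m).trans ?_))
    exact Nat.pow_le_pow_right (by norm_num) (by have := mem_range.1 hm; omega)
  have h3 : Fintype.card (Yb n) * (earlier n).card < 2 ^ (2 ^ (gs n + 1) - 1) := by
    refine (Nat.mul_le_mul (card_Yb_le n) h2).trans_lt ?_
    have he := exponent_lt n
    have : n < 2 ^ n := Nat.lt_two_pow_self
    calc 2 ^ (48 * (n + 10) + 8) * (n * 2 ^ (48 * (n + 10) + 8))
        < 2 ^ (48 * (n + 10) + 8) * (2 ^ n * 2 ^ (48 * (n + 10) + 8)) := by gcongr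
      _ = 2 ^ (97 * n + 976) := by rw [← pow_add, ← pow_add]; ring_nf
      _ ≤ _ := Nat.pow_le_pow_right (by norm_num) (by rw [hg, show n + 10 + 1 = n + 11 from rfl]; omega)
  refine h1.trans_lt ?_
  have hk0 : 0 < kap lam := by unfold kap; positivity
  have hB : nB lam = 2 * kap lam := by unfold nB; rfl
  rw [hB, mul_pow]
  exact Nat.mul_lt_mul_of_lt_of_le h3 (Nat.pow_le_pow_right hk0 (by omega)) (pow_pos hk0 _)

lemma exists_lab (lam n : ℕ) (lp : Pb → Fin (nB lam)) : ∃ lab : Yb n → Fin (nB lam),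
    ∀ l ∈ blockPats lam n, (l.map Prod.fst).Nodup → ∃ z ∈ l, lab z.1 ≠ lp z.2 := by
  refine exists_labelling (s := 2 ^ (gs n + 1) - 1) (nB_pos lam) _ lp (fun l hl ↦ ?_)
    (card_blockPats_lt lam n)
  simp only [blockPats, mem_biUnion] at hl
  obtain ⟨z, -, hz⟩ := hl
  have := length_pat (gs n) z l hz
  omega

/-- The labels of the blocks below a bound. -/
noncomputable def labUpTo (lam : ℕ) : ℕ → ∀ m, Yb m → Fin (nB lam)
  | 0 => fun _ _ ↦ ⟨0, nB_pos lam⟩
  | n + 1 => Function.update (labUpTo lam n) n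
      (exists_lab lam n fun p ↦ labUpTo lam n p.1 p.2).choose

/-- The labels. -/
noncomputable def lab (lam n : ℕ) : Yb n → Fin (nB lam) := labUpTo lam (n + 1) n

lemma labUpTo_eq (lam : ℕ) {m : ℕ} : ∀ n, m < n → labUpTo lam n m = lab lam m := by
  intro n hn
  induction n with
  | zero => omega
  | succ n ih =>
    rcases eq_or_ne m n with rfl | hne
    · rfl
    · rw [labUpTo, Function.update_of_ne hne, ih (by omega)]

/-- The labels of a block avoid all patterns against the earlier blocks. -/
theorem lab_avoids (lam n : ℕ) (l : List (Yb n × Pb)) (hl : l ∈ blockPats lam n)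
    (hnd : (l.map Prod.fst).Nodup) (hlt : ∀ z ∈ l, z.2.1 < n) :
    ∃ z ∈ l, lab lam n z.1 ≠ lab lam z.2.1 z.2.2 := by
  obtain ⟨z, hz, h⟩ := (exists_lab lam n fun p ↦ labUpTo lam n p.1 p.2).choose_spec l hl hnd
  refine ⟨z, hz, ?_⟩
  rw [lab, labUpTo, Function.update_self, ← labUpTo_eq lam n (hlt z hz)]
  exact h

lemma exists_colA (lam n : ℕ) : ∃ f : Yb n → Fin (nA lam), ∀ y w, w.length ≤ 2 * Rc lam →
    f (move (actY n) y w) = f y → move (actY n) y w = y :=
  exists_proper (actY_back n) _ _ (by unfold nA; omega)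

/-- The coloured system for one bound. -/
noncomputable def sys (lam : ℕ) : Sys lam where
  P := Pb
  mv := mvP
  back := mvP_back
  col p := ((exists_colA lam p.1).choose p.2, lab lam p.1 p.2)
  proper := by
    rintro ⟨n, y⟩ w hw h
    rw [move_mvP] at h ⊢
    exact congr_arg (Sigma.mk n) ((exists_colA lam n).choose_spec y w hw (congr_arg Prod.fst h))

end Vale.Agent.P090
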