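import Mathlib

/-!
Lipschitz-free spaces and the bounded approximation property.
-/

namespace Vale.Agent.P090

open Finset

/-- Pairs of points, as a discrete space. -/
structure Pairs (M : Type*) where
  fst : M
  snd : M

instance (M : Type*) : TopologicalSpace (Pairs M) := ⊥

instance (M : Type*) : DiscreteTopology (Pairs M) := ⟨rfl⟩

/-- Bounded real families indexed by pairs of points, with the supremum norm. -/
abbrev Bdd (M : Type*) := BoundedContinuousFunction (Pairs M) ℝ

/-- The entry of a family at a pair of points. -/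
def quo {M : Type*} (g : Bdd M) (x y : M) : ℝ :=
  g ⟨x, y⟩

lemma quo_add {M : Type*} (g g' : Bdd M) (x y : M) :
    quo (g + g') x y = quo g x y + quo g' x y := rfl

lemma quo_smul {M : Type*} (c : ℝ) (g : Bdd M) (x y : M) : quo (c • g) x y = c * quo g x y := rfl

lemma quo_zero {M : Type*} (x y : M) : quo (0 : Bdd M) x y = 0 := rfl

lemma abs_quo_le {M : Type*} (g : Bdd M) (x y : M) : |quo g x y| ≤ ‖g‖ :=
  g.norm_coe_le_norm ⟨x, y⟩

/-- Families of difference quotients of functions vanishing at `o`. -/
def IsQuot {M : Type*} [MetricSpace M] (o : M) (g : Bdd M) : Prop :=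
  ∃ h : M → ℝ, h o = 0 ∧ (∀ x y, h x - h y = quo g x y * dist x y) ∧ ∀ x, quo g x x = 0

lemma isQuot_zero {M : Type*} [MetricSpace M] (o : M) : IsQuot o (0 : Bdd M) :=
  ⟨0, rfl, by simp [quo_zero], by simp [quo_zero]⟩

lemma isQuot_add {M : Type*} [MetricSpace M] (o : M) {g g' : Bdd M}
    (hg : IsQuot o g) (hg' : IsQuot o g') : IsQuot o (g + g') := by
  obtain ⟨h, h0, h1, h2⟩ := hg
  obtain ⟨h', h0', h1', h2'⟩ := hg'
  refine ⟨h + h', by simp [h0, h0'], fun x y ↦ ?_, fun x ↦ by simp [quo_add, h2 x, h2' x]⟩
  simp only [Pi.add_apply, quo_add]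
  linear_combination h1 x y + h1' x y

lemma isQuot_smul {M : Type*} [MetricSpace M] (o : M) (c : ℝ) {g : Bdd M} (hg : IsQuot o g) :
    IsQuot o (c • g) := by
  obtain ⟨h, h0, h1, h2⟩ := hg
  refine ⟨c • h, by simp [h0], fun x y ↦ ?_, fun x ↦ by simp [quo_smul, h2 x]⟩
  simp only [Pi.smul_apply, quo_smul, smul_eq_mul]
  linear_combination c * h1 x y

/-- The Banach space of Lipschitz functions vanishing at `o`, normed by the Lipschitz constant,
stored as difference quotients. -/
def Lip0 (M : Type*) [MetricSpace M] (o : M) : @Submodule ℝ (Bdd M) _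
    (NormedAddCommGroup.toAddCommGroup (E := Bdd M)).toAddCommMonoid NormedSpace.toModule where
  carrier := {g | IsQuot o g}
  zero_mem' := isQuot_zero o
  add_mem' := isQuot_add o
  smul_mem' c _ hg := isQuot_smul o c hg

variable {M : Type*} [MetricSpace M]

lemma delta_add (o x : M) (g g' : Lip0 M o) :
    quo (g + g').1 x o * dist x o = quo g.1 x o * dist x o + quo g'.1 x o * dist x o := by
  rw [Submodule.coe_add, quo_add, add_mul]

lemma delta_smul (o x : M) (c : ℝ) (g : Lip0 M o) :
    quo (c • g).1 x o * dist x o = c • (quo g.1 x o * dist x o) := by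
  rw [Submodule.coe_smul, quo_smul, smul_eq_mul, mul_assoc]

lemma delta_bound (o x : M) (g : Lip0 M o) :
    ‖quo g.1 x o * dist x o‖ ≤ dist x o * ‖g‖ := by
  rw [norm_mul, Real.norm_eq_abs, Real.norm_eq_abs, abs_dist, mul_comm]
  exact mul_le_mul_of_nonneg_left (abs_quo_le g.1 x o) dist_nonneg

/-- Evaluation at `x` of a Lipschitz function vanishing at `o`. -/
noncomputable def delta (o x : M) : StrongDual ℝ (Lip0 M o) :=
  LinearMap.mkContinuous
    { toFun := fun g ↦ quo g.1 x o * dist x o
      map_add' := delta_add o x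
      map_smul' := delta_smul o x }
    (dist x o) (delta_bound o x)

lemma delta_apply (o x : M) (g : Lip0 M o) : delta o x g = quo g.1 x o * dist x o := rfl

/-- The closed span of a set of functionals. -/
noncomputable def closedSpan {X : Type*} [NormedAddCommGroup X] [NormedSpace ℝ X]
    (S : Set (StrongDual ℝ X)) : Submodule ℝ (StrongDual ℝ X) :=
  (Submodule.span ℝ S).topologicalClosure

/-- The bounded approximation property: one bound on the norms of finite rank operators that
approximate the identity on any compact set. -/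
def HasBAP (X : Type*) [NormedAddCommGroup X] [NormedSpace ℝ X] : Prop :=
  ∃ lam : ℝ, 1 ≤ lam ∧ ∀ C : Set X, IsCompact C → ∀ ε : ℝ, 0 < ε → ∃ T : X →L[ℝ] X,
    FiniteDimensional ℝ (LinearMap.range (T : X →ₗ[ℝ] X)) ∧ ‖T‖ ≤ lam ∧
      ∀ u ∈ C, ‖T u - u‖ < ε

/-- The closed span of the range of a family of functionals has the bounded approximation
property. -/
def BAPOn {X : Type*} [NormedAddCommGroup X] [NormedSpace ℝ X] (δ : M → StrongDual ℝ X) : Prop :=
  HasBAP (closedSpan (Set.range δ))

/-- The Lipschitz-free space over `M`, that is the closed span of the evaluations in the dual of the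
Lipschitz functions vanishing at `o`, has the bounded approximation property. -/
def FreeHasBAP (M : Type*) [MetricSpace M] (o : M) : Prop :=
  BAPOn (X := Lip0 M o) (delta o)

end Vale.Agent.P090
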