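import Mathlib
import Vale.Agent.P090.Free

/-!
The measures extracted from a finite rank approximation of the identity of a free space.
-/

namespace Vale.Agent.P090

open Finset

variable {M : Type*} [MetricSpace M]

lemma delta_sub_le (o a b : M) : ‖delta o a - delta o b‖ ≤ dist a b := by
  refine ContinuousLinearMap.opNorm_le_bound _ dist_nonneg fun g ↦ ?_
  obtain ⟨h, h0, h1, -⟩ := g.2
  have e : (delta o a - delta o b) g = quo g.1 a b * dist a b := by
    rw [sub_apply, delta_apply, delta_apply, ← h1 a o, ← h1 b o, ← h1 a b]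
    ring
  rw [e, norm_mul, Real.norm_eq_abs, Real.norm_eq_abs, abs_dist, mul_comm]
  exact mul_le_mul_of_nonneg_left (abs_quo_le g.1 a b) dist_nonneg

lemma delta_self (o : M) : delta o o = 0 := by
  ext g
  simp [delta_apply]

/-- A Lipschitz function as an element of the Banach space. -/
lemma exists_elem (o : M) {h : M → ℝ} {K : ℝ} (hK : 0 ≤ K)
    (hh : ∀ x y, |h x - h y| ≤ K * dist x y) :
    ∃ g : Lip0 M o, ‖g‖ ≤ K ∧ ∀ x, delta o x g = h x - h o := by
  classical
  set q : Pairs M → ℝ := fun z ↦ (h z.fst - h z.snd) / dist z.fst z.snd with hq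
  have hb : ∀ z, ‖q z‖ ≤ K := by
    intro z
    rw [hq, Real.norm_eq_abs, abs_div, abs_dist]
    exact div_le_of_le_mul₀ dist_nonneg hK (hh z.fst z.snd)
  set qb := BoundedContinuousFunction.ofNormedAddCommGroupDiscrete q K hb
  have e : ∀ x y, h x - h y = q ⟨x, y⟩ * dist x y := by
    intro x y
    rcases eq_or_ne x y with rfl | hne
    · simp
    · rw [hq]
      simp only
      rw [div_mul_cancel₀ _ (dist_ne_zero.2 hne)]
  refine ⟨⟨qb, fun x ↦ h x - h o, sub_self _, fun x y ↦ ?_, fun x ↦ ?_⟩, ?_,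
    fun x ↦ ?_⟩
  · change h x - h o - (h y - h o) = q ⟨x, y⟩ * dist x y
    linear_combination e x y
  · change q ⟨x, x⟩ = 0
    simp [hq]
  · exact (BoundedContinuousFunction.norm_le hK).2 hb
  · rw [delta_apply]
    exact (e x o).symm

/-- The distance of the two evaluations is the distance of the points. -/
lemma norm_delta_sub (o a b : M) : ‖delta o a - delta o b‖ = dist a b := by
  refine le_antisymm (delta_sub_le o a b) ?_
  rcases eq_or_ne a b with rfl | hne
  · rw [dist_self]; exact ContinuousLinearMap.opNorm_nonneg _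
  obtain ⟨g, hg, hd⟩ := exists_elem o (h := fun x ↦ dist x b) (K := 1) zero_le_one fun x y ↦ by
    rw [one_mul]; exact abs_dist_sub_le x y b
  have h := (delta o a - delta o b).le_opNorm g
  rw [sub_apply, hd, hd, Real.norm_eq_abs] at h
  simp only [dist_self, sub_sub_sub_cancel_right, sub_zero, abs_dist] at h
  exact h.trans (mul_le_of_le_one_right (ContinuousLinearMap.opNorm_nonneg _) hg)

/-- Two functions on a finite set that are Lipschitz there pair with the approximating measures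
as they would with point masses. -/
structure Approx {N : Type*} [MetricSpace N] (lam : ℝ) (E B : Finset N) (μ : N → N → ℝ) : Prop where
  sub : E ⊆ B
  total : ∀ x, ∑ p ∈ B, μ x p = 1
  lip : ∀ x x' : N, ∀ (f : N → ℝ) (K : ℝ), 0 ≤ K →
    (∀ a ∈ B, ∀ b ∈ B, |f a - f b| ≤ K * dist a b) →
    |∑ p ∈ B, μ x p * f p - ∑ p ∈ B, μ x' p * f p| ≤ K * (lam * dist x x' + 2)
  fix : ∀ e ∈ E, ∀ (f : N → ℝ) (K : ℝ), 0 ≤ K →
    (∀ a ∈ B, ∀ b ∈ B, |f a - f b| ≤ K * dist a b) →
    |∑ p ∈ B, μ e p * f p - f e| ≤ 2 * K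

/-- A bounded approximation of the identity yields measures on every bounded retract. -/
theorem approx_of_bapOn {X : Type*} [NormedAddCommGroup X] [NormedSpace ℝ X]
    (δ : M → StrongDual ℝ X) (o : M) (h0 : δ o = 0)
    (hδ : ∀ a b, ‖δ a - δ b‖ ≤ dist a b)
    (hX : ∀ (h : M → ℝ) (K : ℝ), 0 ≤ K → (∀ x y, |h x - h y| ≤ K * dist x y) →
      ∃ g : X, ‖g‖ ≤ K ∧ ∀ x, δ x g = h x - h o)
    (hB : BAPOn δ) :
    ∃ lam : ℕ, ∀ (N : Type) [MetricSpace N] (ι : N → M) (r : M → N),
      (∀ a b, dist (r a) (r b) ≤ dist a b) → (∀ x, r (ι x) = x) →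
      (∀ a b, dist (ι a) (ι b) ≤ dist a b) → (∃ D, ∀ x, dist (ι x) o ≤ D) →
      ∀ E : Finset N, ∃ (B : Finset N) (μ : N → N → ℝ), Approx (lam : ℝ) E B μ := by
  classical
  obtain ⟨lam, hlam1, hB⟩ := hB
  refine ⟨⌈lam⌉₊, fun N _ ι r hr hri hι hD E ↦ ?_⟩
  obtain ⟨D, hD⟩ := hD
  let dl : M → closedSpan (Set.range δ) := fun x ↦
    ⟨δ x, Submodule.le_topologicalClosure _ (Submodule.subset_span ⟨x, rfl⟩)⟩
  obtain ⟨T, hfin, hT, hC⟩ := hB ↑(E.image fun e ↦ dl (ι e))
    (Finset.finite_toSet _).isCompact 1 one_pos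
  have hTd : ∀ x x', ‖T (dl (ι x)) - T (dl (ι x'))‖ ≤ (⌈lam⌉₊ : ℝ) * dist x x' := by
    intro x x'
    rw [← T.map_sub]
    refine (T.le_opNorm _).trans (mul_le_mul (hT.trans (Nat.le_ceil lam)) ?_
      (norm_nonneg (dl (ι x) - dl (ι x')))
      (Nat.cast_nonneg _))
    exact (hδ (ι x) (ι x')).trans (hι x x')
  -- the orbit is bounded in a finite dimensional space
  set W := LinearMap.range (T : closedSpan (Set.range δ) →ₗ[ℝ] closedSpan (Set.range δ)) with hW
  set S : Set W := Set.range fun x ↦ (⟨T (dl (ι x)), LinearMap.mem_range_self _ _⟩ : W) with hS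
  have hbd : Bornology.IsBounded S := by
    refine (Metric.isBounded_closedBall (x := (0 : W)) (r := lam * D)).subset ?_
    rintro _ ⟨x, rfl⟩
    rw [mem_closedBall_zero_iff]
    refine (T.le_opNorm _).trans (mul_le_mul hT ?_ (norm_nonneg (dl (ι x))) (by linarith))
    have := hδ (ι x) o
    rw [h0, sub_zero] at this
    exact this.trans (hD x)
  have : FiniteDimensional ℝ W := hfin
  have : ProperSpace W := FiniteDimensional.proper ℝ W
  obtain ⟨t, htf, htc⟩ := Metric.totallyBounded_iff.1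
    ((Metric.isBounded_iff_subset_closedBall 0).1 hbd |>.elim fun R hR ↦
      (isCompact_closedBall (0 : W) R).totallyBounded.subset hR) (1 / 2) (by norm_num)
  -- finitely supported approximations of the centres
  have hfs : ∀ w : W, ∃ c : M →₀ ℝ,
      ‖((w : closedSpan (Set.range δ)) : StrongDual ℝ X) - c.linearCombination ℝ (δ)‖ < 1 / 2 := by
    intro w
    have hm : ((w : closedSpan (Set.range δ)) : StrongDual ℝ X) ∈
        closure (Submodule.span ℝ (Set.range (δ)) : Set (StrongDual ℝ X)) :=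
      (w : closedSpan (Set.range δ)).2
    obtain ⟨z, hz, hzd⟩ := Metric.mem_closure_iff.1 hm (1 / 2) (by norm_num)
    obtain ⟨c, rfl⟩ := (Finsupp.mem_span_range_iff_exists_finsupp).1 hz
    refine ⟨c, ?_⟩
    rwa [dist_eq_norm] at hzd
  choose cf hcf using hfs
  have hcov : ∀ x, ∃ w ∈ htf.toFinset,
      dist (⟨T (dl (ι x)), LinearMap.mem_range_self _ _⟩ : W) w < 1 / 2 := by
    intro x
    obtain ⟨w, hw, hwd⟩ := Set.mem_iUnion₂.1 (htc ⟨x, rfl⟩)
    exact ⟨w, htf.mem_toFinset.2 hw, hwd⟩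
  choose wc hwc hwd using hcov
  set B : Finset N := insert (r o) (E ∪ htf.toFinset.biUnion fun w ↦ (cf w).support.image r)
  have hoB : r o ∈ B := mem_insert_self _ _
  set μ : N → N → ℝ := fun x p ↦ (cf (wc x)).sum (fun m c ↦ if r m = p then c else 0) +
    if p = r o then 1 - (cf (wc x)).sum (fun _ c ↦ c) else 0 with hμ
  have hmem : ∀ x, ∀ m ∈ (cf (wc x)).support, r m ∈ B := fun x m hm ↦
    mem_insert_of_mem (mem_union_right _ (mem_biUnion.2 ⟨wc x, hwc x, mem_image.2 ⟨m, hm, rfl⟩⟩))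
  have hpair : ∀ x (f : N → ℝ), ∑ p ∈ B, μ x p * f p =
      (cf (wc x)).sum (fun m c ↦ c * (f (r m) - f (r o))) + f (r o) := by
    intro x f
    simp only [hμ, add_mul, sum_add_distrib, Finsupp.sum, sum_mul, ite_mul, zero_mul]
    rw [sum_comm, sum_congr rfl fun m hm ↦ sum_ite_eq_of_mem B (r m) (fun p ↦ cf (wc x) m * f p)
      (hmem x m hm), sum_ite_eq_of_mem' B (r o) _ hoB]
    simp only [mul_sub, sum_sub_distrib, ← sum_mul]
    ring
  have hext : ∀ (f : N → ℝ) (K : ℝ), 0 ≤ K → (∀ a ∈ B, ∀ b ∈ B, |f a - f b| ≤ K * dist a b) →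
      ∃ g : X, ‖g‖ ≤ K ∧ ∀ x, |(T (dl (ι x)) : StrongDual ℝ X) g -
        (∑ p ∈ B, μ x p * f p - f (r o))| ≤ K ∧ ∀ e ∈ E, δ (ι e) g = f e - f (r o) := by
    intro f K hK hf
    have hf' : LipschitzOnWith K.toNNReal f ↑B := LipschitzOnWith.of_dist_le_mul fun a ha b hb ↦ by
      rw [Real.dist_eq, Real.coe_toNNReal _ hK]; exact hf a ha b hb
    obtain ⟨F, hF, hFe⟩ := hf'.extend_real
    obtain ⟨g, hg, hgd⟩ := hX (fun m ↦ F (r m)) K hK fun a b ↦ by
      have := hF.dist_le_mul (r a) (r b)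
      rw [Real.dist_eq, Real.coe_toNNReal _ hK] at this
      exact this.trans (mul_le_mul_of_nonneg_left (hr a b) hK)
    refine ⟨g, hg, fun x ↦ ⟨?_, fun e he ↦ ?_⟩⟩
    · rw [hpair, add_sub_cancel_right]
      have e1 : ((cf (wc x)).linearCombination ℝ (δ)) g =
          (cf (wc x)).sum (fun m c ↦ c * (f (r m) - f (r o))) := by
        rw [Finsupp.linearCombination_apply]
        simp only [Finsupp.sum, FunLike.coe_sum, Finset.sum_apply,
          FunLike.coe_smul, Pi.smul_apply, smul_eq_mul, hgd]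
        exact sum_congr rfl fun m hm ↦ by rw [hFe (hmem x m hm), hFe hoB]
      rw [← e1, ← sub_apply]
      rw [← Real.norm_eq_abs]
      refine (ContinuousLinearMap.le_opNorm _ g).trans ?_
      refine (mul_le_mul ?_ hg (norm_nonneg _) zero_le_one).trans_eq (one_mul K)
      refine (norm_sub_le_norm_sub_add_norm_sub _
        ((wc x : closedSpan (Set.range δ)) : StrongDual ℝ X) _).trans ?_
      have := hwd x
      rw [dist_eq_norm] at this
      linarith [hcf (wc x), (show ‖((T (dl (ι x)) : closedSpan (Set.range δ)) : StrongDual ℝ X) -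
        ((wc x : closedSpan (Set.range δ)) : StrongDual ℝ X)‖ < 1 / 2 from this)]
    · rw [hgd, hri, hFe hoB, hFe (mem_insert_of_mem (mem_union_left _ he))]
  refine ⟨B, μ, fun e he ↦ mem_insert_of_mem (mem_union_left _ he), fun x ↦ ?_,
    fun x x' f K hK hf ↦ ?_, fun e he f K hK hf ↦ ?_⟩
  · simpa using hpair x fun _ ↦ 1
  · obtain ⟨g, hg, hgx⟩ := hext f K hK hf
    have h1 := (hgx x).1
    have h2 := (hgx x').1
    have h3 : |(T (dl (ι x)) : StrongDual ℝ X) g -
        (T (dl (ι x')) : StrongDual ℝ X) g| ≤ (⌈lam⌉₊ : ℝ) * dist x x' * K := by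
      rw [← sub_apply]
      rw [← Real.norm_eq_abs]
      exact (ContinuousLinearMap.le_opNorm _ g).trans
        (mul_le_mul (hTd x x') hg (norm_nonneg _) (mul_nonneg (Nat.cast_nonneg _) dist_nonneg))
    rw [abs_le] at h1 h2 h3 ⊢
    constructor <;> nlinarith
  · obtain ⟨g, hg, hgx⟩ := hext f K hK hf
    have h1 := (hgx e).1
    have h2 := (hgx e).2 e he
    have h3 : |(T (dl (ι e)) : StrongDual ℝ X) g - δ (ι e) g| ≤ K := by
      rw [← sub_apply]
      rw [← Real.norm_eq_abs]
      refine (ContinuousLinearMap.le_opNorm _ g).trans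
        ((mul_le_mul ?_ hg (norm_nonneg _) zero_le_one).trans_eq (one_mul K))
      exact (hC _ (mem_coe.2 (mem_image_of_mem _ he))).le
    rw [abs_le] at h1 h3 ⊢
    constructor <;> linarith

/-- A bounded approximation of the identity on the free space yields measures on bounded
retracts. -/
theorem approx_of_freeHasBAP {o : M} (hB : FreeHasBAP M o) :
    ∃ lam : ℕ, ∀ (N : Type) [MetricSpace N] (ι : N → M) (r : M → N),
      (∀ a b, dist (r a) (r b) ≤ dist a b) → (∀ x, r (ι x) = x) →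
      (∀ a b, dist (ι a) (ι b) ≤ dist a b) → (∃ D, ∀ x, dist (ι x) o ≤ D) →
      ∀ E : Finset N, ∃ (B : Finset N) (μ : N → N → ℝ), Approx (lam : ℝ) E B μ :=
  approx_of_bapOn (delta o) o (delta_self o) (delta_sub_le o)
    (fun h _ hK hh ↦ exists_elem o (h := h) hK hh) hB

end Vale.Agent.P090
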