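import Mathlib
import Vale.Agent.P090.FreeApprox
import Vale.Agent.P090.Code

/-!
Approximating measures force, inside any finite block far from their supports, a nonempty set of
clusters in which every cluster continues in at least three of the six directions.
-/

namespace Vale.Agent.P090

open Finset

section Boundary

variable {V : Type*} [DecidableEq V] (nb : V → Lt → V)

/-- The number of outgoing slots of a set. -/
def bad (W : Finset V) : ℕ := ∑ v ∈ W, #{a : Lt | nb v a ∉ W}

lemma exists_low_boundary : ∀ (U : Finset V) (h : V → ℝ), (∀ v, 0 ≤ h v) →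
    (∀ v, v ∉ U → h v = 0) → (∑ v ∈ U, ∑ a : Lt, max (h v - h (nb v a)) 0) ≤ ∑ v ∈ U, h v →
    0 < ∑ v ∈ U, h v → ∃ W ⊆ U, W.Nonempty ∧ bad nb W ≤ W.card := by
  intro U
  induction U using Finset.strongInduction with
  | H U ih =>
    intro h h0 hU hD hpos
    classical
    set T := U.filter fun v ↦ 0 < h v with hT
    have hTne : T.Nonempty := by
      obtain ⟨v, hv, hvp⟩ := exists_lt_of_sum_lt (show ∑ _v ∈ U, (0 : ℝ) < ∑ v ∈ U, h v by simpa)
      exact ⟨v, mem_filter.2 ⟨hv, hvp⟩⟩
    by_cases hb : bad nb T ≤ T.card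
    · exact ⟨T, filter_subset _ _, hTne, hb⟩
    obtain ⟨v0, hv0, hmin⟩ := exists_min_image T h hTne
    set m := h v0 with hm
    have hm0 : 0 < m := (mem_filter.1 hv0).2
    set h' : V → ℝ := fun v ↦ max (h v - m) 0 with hh'
    have hnot : ∀ v, v ∉ T → h v = 0 := by
      intro v hv
      by_cases hvU : v ∈ U
      · exact le_antisymm (not_lt.1 fun hp ↦ hv (mem_filter.2 ⟨hvU, hp⟩)) (h0 v)
      · exact hU v hvU
    have hin : ∀ v ∈ T, h' v = h v - m := fun v hv ↦
      max_eq_left (sub_nonneg.2 (hmin v hv))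
    have hout : ∀ v, v ∉ T → h' v = 0 := fun v hv ↦ by
      simp [hh', hnot v hv, hm0.le]
    have hpt : ∀ v a, max (h v - h (nb v a)) 0 = max (h' v - h' (nb v a)) 0 +
        m * if v ∈ T ∧ nb v a ∉ T then 1 else 0 := by
      intro v a
      by_cases hv : v ∈ T
      · by_cases hn : nb v a ∈ T
        · simp [hin v hv, hin _ hn, hn]
        · rw [hin v hv, hout _ hn, hnot _ hn, if_pos ⟨hv, hn⟩, max_eq_left, max_eq_left]
          · ring
          · linarith [hmin v hv]
          · linarith [hmin v hv]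
      · rw [hnot v hv, hout v hv, if_neg fun e ↦ hv e.1, max_eq_right, max_eq_right]
        · ring
        · linarith [le_max_right (h (nb v a) - m) 0]
        · linarith [h0 (nb v a)]
    have hsum : ∀ v ∈ U, h v = h' v + m * if v ∈ T then 1 else 0 := by
      intro v _
      by_cases hv : v ∈ T
      · simp [hin v hv, hv]
      · simp [hout v hv, hnot v hv, hv]
    have e1 : ∑ v ∈ U, h v = (∑ v ∈ U, h' v) + m * T.card := by
      rw [sum_congr rfl hsum, sum_add_distrib, ← mul_sum, sum_boole, filter_mem_eq_inter,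
        inter_eq_right.2 (filter_subset _ U)]
    have e2 : (∑ v ∈ U, ∑ a : Lt, max (h v - h (nb v a)) 0) =
        (∑ v ∈ U, ∑ a : Lt, max (h' v - h' (nb v a)) 0) + m * bad nb T := by
      simp only [hpt, sum_add_distrib, ← mul_sum]
      congr 2
      rw [bad, Nat.cast_sum, ← sum_subset (filter_subset _ U : T ⊆ U)]
      · refine sum_congr rfl fun v hv ↦ ?_
        rw [← sum_boole]
        exact sum_congr rfl fun a _ ↦ by simp [hv]
      · exact fun v _ hv ↦ sum_eq_zero fun a _ ↦ if_neg fun e ↦ hv e.1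
    have hlt : (T.card : ℝ) < bad nb T := by exact_mod_cast not_le.1 hb
    have hD0 : 0 ≤ ∑ v ∈ U, ∑ a : Lt, max (h' v - h' (nb v a)) 0 :=
      sum_nonneg fun v _ ↦ sum_nonneg fun a _ ↦ le_max_right _ _
    have hD' : (∑ v ∈ U, ∑ a : Lt, max (h' v - h' (nb v a)) 0) < ∑ v ∈ U, h' v := by
      nlinarith [mul_lt_mul_of_pos_left hlt hm0]
    have hv0U : v0 ∈ U := (mem_filter.1 hv0).1
    have hz : h' v0 = 0 := by simp [hh', hm]
    have es : ∑ v ∈ U.erase v0, h' v = ∑ v ∈ U, h' v :=
      sum_erase _ hz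
    have ed : (∑ v ∈ U.erase v0, ∑ a : Lt, max (h' v - h' (nb v a)) 0) =
        ∑ v ∈ U, ∑ a : Lt, max (h' v - h' (nb v a)) 0 := by
      refine sum_erase _ (sum_eq_zero fun a _ ↦ ?_)
      rw [hz]
      exact max_eq_right (by linarith [le_max_right (h (nb v0 a) - m) 0])
    obtain ⟨W, hW, hW'⟩ := ih _ (erase_ssubset hv0U) h' (fun v ↦ le_max_right _ _) (fun v hv ↦ by
        rcases eq_or_ne v v0 with rfl | hne
        · exact hz
        · exact hout v fun hvT ↦ hv (mem_erase.2 ⟨hne, (mem_filter.1 hvT).1⟩))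
      (by rw [es, ed]; exact hD'.le) (by rw [es]; linarith)
    exact ⟨W, hW.trans (erase_subset _ _), hW'⟩

lemma exists_branching : ∀ (W : Finset V),
    (∀ v ∈ W, ∀ a, nb v a ∈ W → nb (nb v a) (flipL a) = v) → W.Nonempty → bad nb W ≤ W.card →
    ∃ Z ⊆ W, Z.Nonempty ∧ ∀ v ∈ Z, 3 ≤ #{a : Lt | nb v a ∈ Z} := by
  intro W
  induction W using Finset.strongInduction with
  | H W ih =>
    intro hinv hne hb
    classical
    by_cases hall : ∀ v ∈ W, 3 ≤ #{a : Lt | nb v a ∈ W}
    · exact ⟨W, subset_refl _, hne, hall⟩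
    push Not at hall
    obtain ⟨w, hw, hg⟩ := hall
    have hsplit : #{a : Lt | nb w a ∈ W} + #{a : Lt | nb w a ∉ W} = 6 := by
      rw [card_filter_add_card_filter_not]; rfl
    have h1 : bad nb (W.erase w) + #{a : Lt | nb w a ∉ W} ≤
        bad nb W + #{a : Lt | nb w a ∈ W} := by
      have e : bad nb W = (∑ v ∈ W.erase w, #{a : Lt | nb v a ∉ W}) + #{a : Lt | nb w a ∉ W} :=
        (sum_erase_add _ _ hw).symm
      have hle : bad nb (W.erase w) ≤ (∑ v ∈ W.erase w, #{a : Lt | nb v a ∉ W}) +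
          ∑ v ∈ W.erase w, #{a : Lt | nb v a = w} := by
        rw [← sum_add_distrib]
        refine sum_le_sum fun v _ ↦ (card_le_card fun a ha ↦ ?_).trans (card_union_le _ _)
        simp only [mem_filter, mem_univ, true_and, mem_erase, mem_union] at ha ⊢
        tauto
      have hinj : ∑ v ∈ W.erase w, #{a : Lt | nb v a = w} ≤ #{a : Lt | nb w a ∈ W} := by
        rw [← card_sigma]
        refine card_le_card_of_injOn (fun z ↦ flipL z.2) ?_ ?_
        · rintro ⟨v, a⟩ hz
          simp only [coe_sigma, Set.mem_sigma_iff, mem_coe, mem_filter, mem_univ, true_and,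
            mem_erase] at hz ⊢
          rw [← hz.2, hinv v hz.1.2 a (hz.2 ▸ hw)]
          exact hz.1.2
        · rintro ⟨v, a⟩ hz ⟨v', a'⟩ hz' e
          simp only [coe_sigma, Set.mem_sigma_iff, mem_coe, mem_filter, mem_univ, true_and,
            mem_erase] at hz hz'
          have ea : a = a' := by
            have := congr_arg flipL e
            simpa [flipL_flipL] using this
          subst ea
          have e1 := hinv v hz.1.2 a (hz.2 ▸ hw)
          have e2 := hinv v' hz'.1.2 a (hz'.2 ▸ hw)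
          rw [hz.2] at e1
          rw [hz'.2] at e2
          rw [← e1, ← e2]
      omega
    have hc : (W.erase w).card = W.card - 1 := card_erase_of_mem hw
    have hne' : (W.erase w).Nonempty := by
      rw [nonempty_iff_ne_empty]
      intro he
      have : bad nb W = #{a : Lt | nb w a ∉ W} := by
        rw [bad, ← sum_erase_add _ _ hw, he, sum_empty, zero_add]
      rw [he, card_empty] at hc
      omega
    obtain ⟨Z, hZ, hZ'⟩ := ih _ (erase_ssubset hw)
      (fun v hv a ha ↦ hinv v (mem_of_mem_erase hv) a (mem_of_mem_erase ha)) hne' (by omega)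
    exact ⟨Z, hZ.trans (erase_subset _ _), hZ'⟩

end Boundary

variable {lam : ℕ} {S : Sys lam}

/-- Two points in one cluster. -/
def Near (p q : S.P) : Prop := S.gd p q ≤ 2 * Jc lam + 2

lemma Jc_pos (lam : ℕ) : 0 < Jc lam := by
  unfold Jc Ac
  have := Lc_pos lam
  positivity

lemma near_self (p : S.P) : Near p p := by unfold Near; rw [gd_self]; omega

lemma near_symm {p q : S.P} (h : Near p q) : Near q p := by unfold Near at *; rwa [gd_comm]

/-- Inside a code ball of radius below `J + 1` being in one cluster is transitive. -/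
lemma near_trans {u : Col lam → ℝ} {p q r : S.P} (hp : dist (S.code p) u < Jc lam + 1)
    (hr : dist (S.code r) u < Jc lam + 1) (h1 : Near p q) (h2 : Near q r) : Near p r := by
  have hJ := Jc_pos lam
  unfold Near at *
  have h := gd_triangle p q r
  have hR : S.gd p r ≤ Rc lam := by
    have : Rc lam = 8 * Jc lam := by unfold Rc; rfl
    omega
  have := (gd_le_code_dist hR).trans (dist_triangle_right _ _ u)
  have : (S.gd p r : ℝ) < ((2 * Jc lam + 2 : ℕ) : ℝ) := by push_cast; linarith
  exact le_of_lt (by exact_mod_cast this)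

/-- A point with a code near that of `x` is close by moves to a point of the colour of `x`. -/
lemma exists_colour {p x : S.P} (h : dist (S.code p) (S.code x) < Jc lam) :
    ∃ z, S.col z = S.col x ∧ S.gd p z < Jc lam := by
  have h' := (dist_le_pi_dist _ _ (S.col x)).trans_lt h
  simp only [Sys.code, codeN_self, Nat.cast_zero, Real.dist_eq, sub_zero, Nat.abs_cast,
    Nat.cast_lt] at h'
  rcases codeN_mem p (S.col x) with e | ⟨z, hz, hzd⟩
  · exfalso
    have : Rc lam = 8 * Jc lam := by unfold Rc; rfl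
    omega
  · exact ⟨z, hz, hzd ▸ h'⟩

/-- A sign, never zero. -/
noncomputable def sg (t : ℝ) : ℝ := if 0 ≤ t then 1 else -1

lemma sg_mul (t : ℝ) : sg t * t = |t| := by
  unfold sg
  split_ifs with h
  · rw [one_mul, abs_of_nonneg h]
  · rw [abs_of_neg (not_le.1 h)]; ring

lemma abs_sg (t : ℝ) : |sg t| = 1 := by unfold sg; split_ifs <;> simp

/-- The cut off around a code. -/
noncomputable def chi (u : Col lam → ℝ) (p : S.P) : ℝ :=
  Lc lam / 2 * max (1 - dist (S.code p) u / Jc lam) 0

lemma chi_nonneg (u : Col lam → ℝ) (p : S.P) : 0 ≤ chi u p :=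
  mul_nonneg (by positivity) (le_max_right _ _)

lemma chi_le (u : Col lam → ℝ) (p : S.P) : chi u p ≤ Lc lam / 2 :=
  mul_le_of_le_one_right (by positivity) (max_le (sub_le_self _ (by positivity)) zero_le_one)

lemma chi_eq_zero {u : Col lam → ℝ} {p : S.P} (h : (Jc lam : ℝ) ≤ dist (S.code p) u) :
    chi u p = 0 := by
  have hJ : (0 : ℝ) < Jc lam := by exact_mod_cast Jc_pos lam
  rw [chi, max_eq_right (sub_nonpos.2 ((one_le_div hJ).2 h)), mul_zero]

lemma abs_chi_sub_le (u u' : Col lam → ℝ) (p p' : S.P) :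
    |chi u p - chi u' p'| ≤
      Lc lam / (2 * Jc lam) * |dist (S.code p) u - dist (S.code p') u'| := by
  rw [chi, chi, ← mul_sub, abs_mul, abs_of_nonneg (by positivity : (0 : ℝ) ≤ (Lc lam : ℝ) / 2)]
  refine (mul_le_mul_of_nonneg_left (abs_max_sub_max_le_abs _ _ _) (by positivity)).trans_eq ?_
  rw [show (1 - dist (S.code p) u / (Jc lam : ℝ)) - (1 - dist (S.code p') u' / (Jc lam : ℝ)) =
      -((dist (S.code p) u - dist (S.code p') u') / (Jc lam : ℝ)) by ring, abs_neg, abs_div,
    Nat.abs_cast]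
  ring

/-- The constants in the form used by the estimates. -/
lemma consts (lam : ℕ) :
    (Lc lam : ℝ) = 48 * ((lam : ℝ) + 2) ∧ (Lc lam : ℝ) / (2 * Jc lam) * Ac lam = 1 / 4 ∧
      (Lc lam : ℝ) / (2 * Jc lam) ≤ 1 / 4 ∧ Lc lam ≤ 2 * Jc lam + 2 ∧
      ((lam : ℝ) + 4) * Lc lam = Ac lam := by
  have hL : (0 : ℝ) < Lc lam := by exact_mod_cast Lc_pos lam
  have hA : Ac lam = (lam + 4) * Lc lam := by unfold Ac; rfl
  have hA1 : 1 ≤ Ac lam := hA ▸ Nat.mul_pos (by omega) (Lc_pos lam)
  have hA1' : (1 : ℝ) ≤ Ac lam := by exact_mod_cast hA1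
  have hJ : Jc lam = 2 * Lc lam * Ac lam := by unfold Jc; rfl
  have hd : (Lc lam : ℝ) / (2 * Jc lam) = 1 / (4 * Ac lam) := by
    rw [hJ]; push_cast; field_simp; ring
  refine ⟨by unfold Lc; push_cast; ring, ?_, ?_, ?_, by rw [hA]; push_cast; ring⟩
  · rw [hd]; field_simp
  · rw [hd]; gcongr; linarith
  · rw [hJ]; nlinarith

lemma pairing {B E : Finset S.P} {μ : S.P → S.P → ℝ} (hap : Approx (lam : ℝ) E B μ)
    (hE : ∀ p, ∃ e ∈ E, S.code e = S.code p) (x : S.P) (f : S.P → ℝ) (K : ℝ) (hK : 0 ≤ K)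
    (hf : ∀ a ∈ B, ∀ b ∈ B, |f a - f b| ≤ K * dist a b) :
    ∃ e ∈ B, S.code e = S.code x ∧ |∑ p ∈ B, μ x p * f p - f e| ≤ K * Ac lam := by
  obtain ⟨e, he, hc⟩ := hE x
  refine ⟨e, hap.sub he, hc, ?_⟩
  have h1 := hap.lip x e f K hK hf
  have h2 := hap.fix e he f K hK hf
  have hd : dist x e ≤ Lc lam := by
    refine (dd_le x e).trans ?_
    rw [hc, dist_self, add_zero]
  have hL : (1 : ℝ) ≤ Lc lam := by exact_mod_cast Lc_pos lam
  have : (lam : ℝ) * dist x e + 2 + 2 ≤ Ac lam := by
    rw [← (consts lam).2.2.2.2]; nlinarith [(Nat.cast_nonneg _ : (0 : ℝ) ≤ lam)]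
  rw [abs_le] at h1 h2 ⊢
  constructor <;> nlinarith

section Core

variable {Y : Type} (emb : Y → S.P) (act : Y → Lt → Y)
  (B : Finset S.P)

open Classical in
/-- The points of the support whose code is close to that of a point of the block. -/
noncomputable def inner (y : Y) : Finset S.P :=
  B.filter fun p ↦ dist (S.code p) (S.code (emb y)) < Jc lam

open Classical in
/-- The clusters seen from a point of the block. -/
noncomputable def clusters (y : Y) : Finset (Finset S.P) :=
  (inner emb B y).image fun p ↦ (inner emb B y).filter (Near p)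

open Classical in
/-- All clusters. -/
noncomputable def nodes [Fintype Y] : Finset (Y × Finset S.P) :=
  univ.biUnion fun y ↦ (clusters emb B y).image (Prod.mk y)

open Classical in
/-- The neighbouring cluster in a direction. -/
noncomputable def next (w : Y × Finset S.P) (a : Lt) : Y × Finset S.P :=
  (act w.1 a, (inner emb B (act w.1 a)).filter fun p' ↦ ∃ p ∈ w.2, Near p p')

lemma mem_nodes [Fintype Y] {w : Y × Finset S.P} : w ∈ nodes emb B ↔ w.2 ∈ clusters emb B w.1 := by
  obtain ⟨y, K⟩ := w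
  simp [nodes]

lemma mem_inner {y : Y} {p : S.P} :
    p ∈ inner emb B y ↔ p ∈ B ∧ dist (S.code p) (S.code (emb y)) < Jc lam := by
  simp [inner]

variable (hemb : ∀ y a, emb (act y a) = S.mv (emb y) a)

include hemb in
lemma code_step (y : Y) (a : Lt) : dist (S.code (emb y)) (S.code (emb (act y a))) ≤ 1 := by
  rw [hemb]
  refine (code_dist_le_gd _ _).trans ?_
  exact_mod_cast gd_le_word (emb y) [a]

lemma outer_of_inner {y : Y} {p : S.P} (h : p ∈ inner emb B y) :
    dist (S.code p) (S.code (emb y)) < Jc lam + 1 := ((mem_inner emb B).1 h).2.trans (lt_add_one _)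

include hemb in
lemma outer_of_inner_step {y : Y} {a : Lt} {p : S.P} (h : p ∈ inner emb B (act y a)) :
    dist (S.code p) (S.code (emb y)) < Jc lam + 1 := by
  linarith [((mem_inner emb B).1 h).2, code_step emb act hemb y a,
    dist_triangle (S.code p) (S.code (emb (act y a))) (S.code (emb y)),
    dist_comm (S.code (emb y)) (S.code (emb (act y a)))]

include hemb in
lemma next_mem_of_nonempty [Fintype Y] {w : Y × Finset S.P} (hw : w ∈ nodes emb B) {a : Lt}
    (h : (next emb act B w a).2.Nonempty) : next emb act B w a ∈ nodes emb B := by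
  classical
  obtain ⟨p0, hp0, hK⟩ := mem_image.1 ((mem_nodes emb B).1 hw)
  rw [mem_nodes, clusters, mem_image]
  obtain ⟨p', hp'⟩ := h
  simp only [next, mem_filter] at hp'
  refine ⟨p', hp'.1, ?_⟩
  simp only [next]
  ext x
  simp only [mem_filter, and_congr_right_iff, ← hK]
  intro hx
  have hp'o := outer_of_inner_step emb act B hemb hp'.1
  have hxo := outer_of_inner_step emb act B hemb hx
  obtain ⟨p1, hp1, hn1⟩ := hp'.2
  rw [← hK, mem_filter] at hp1
  constructor
  · exact fun hn ↦ ⟨p1, ⟨hp1.1, hp1.2⟩, near_trans (outer_of_inner emb B hp1.1) hxo hn1 hn⟩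
  · rintro ⟨p, ⟨hp, hpn⟩, hn⟩
    have hpo := outer_of_inner emb B hp
    have h1 : Near p1 p := near_trans (outer_of_inner emb B hp1.1) hpo (near_symm hp1.2) hpn
    exact near_trans hp'o hxo (near_symm hn1)
      (near_trans (outer_of_inner emb B hp1.1) hxo h1 hn)

include hemb in
lemma next_next [Fintype Y] {w : Y × Finset S.P} (hback : ∀ y a, act (act y a) (flipL a) = y)
    (hw : w ∈ nodes emb B) {a : Lt} (hn : next emb act B w a ∈ nodes emb B) :
    next emb act B (next emb act B w a) (flipL a) = w := by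
  classical
  obtain ⟨y, K⟩ := w
  obtain ⟨p0, hp0, hK⟩ := mem_image.1 ((mem_nodes emb B).1 hw)
  obtain ⟨q0, hq0, hK'⟩ := mem_image.1 ((mem_nodes emb B).1 hn)
  simp only [next] at hK' hq0 hK hp0 ⊢
  refine Prod.ext (hback y a) ?_
  simp only [hback]
  have hq0' : q0 ∈ (inner emb B (act y a)).filter fun p' ↦ ∃ p ∈ K, Near p p' := by
    rw [← hK']; exact mem_filter.2 ⟨hq0, near_self q0⟩
  obtain ⟨p1, hp1, hn1⟩ := (mem_filter.1 hq0').2
  have hp1' := hp1
  rw [← hK, mem_filter] at hp1'
  refine Eq.trans ?_ hK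
  ext x
  simp only [mem_filter, and_congr_right_iff]
  intro hx
  have hxo := outer_of_inner emb B hx
  constructor
  · rintro ⟨p', ⟨-, p, hp, hpp'⟩, hn'⟩
    rw [← hK, mem_filter] at hp
    have h1 : Near p x := near_trans (outer_of_inner emb B hp.1) hxo hpp' hn'
    exact near_trans (outer_of_inner emb B hp0) hxo hp.2 h1
  · intro hn'
    refine ⟨q0, mem_filter.1 hq0', near_trans (outer_of_inner_step emb act B hemb hq0) hxo
      (near_symm hn1) ?_⟩
    exact near_trans (outer_of_inner emb B hp1'.1) hxo (near_symm hp1'.2) hn'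

variable {E : Finset S.P} {μ : S.P → S.P → ℝ} (hap : Approx (lam : ℝ) E B μ)
  (hE : ∀ p, ∃ e ∈ E, S.code e = S.code p)

/-- The weight of a cluster. -/
noncomputable def wt (μ : S.P → S.P → ℝ) (w : Y × Finset S.P) : ℝ :=
  |∑ p ∈ w.2, μ (emb w.1) p * chi (S.code (emb w.1)) p|

include hap hE in
lemma mass_le (y : Y) :
    (Lc lam : ℝ) / 4 ≤ ∑ K ∈ clusters emb B y, wt emb μ (y, K) := by
  classical
  set u := S.code (emb y)
  obtain ⟨hL, hA, hJA, -, -⟩ := consts lam
  obtain ⟨e, he, hc, hp⟩ := pairing hap hE (emb y) (chi u) (Lc lam / (2 * Jc lam)) (by positivity)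
    fun a _ b _ ↦ (abs_chi_sub_le u u a b).trans (mul_le_mul_of_nonneg_left
      ((abs_dist_sub_le _ _ _).trans (code_dist_le_dist a b)) (by positivity))
  have hce : chi u e = Lc lam / 2 := by simp [chi, hc, u]
  rw [hA, hce] at hp
  have hsum : ∑ p ∈ B, μ (emb y) p * chi u p =
      ∑ K ∈ clusters emb B y, ∑ p ∈ K, μ (emb y) p * chi u p := by
    rw [← sum_subset (show inner emb B y ⊆ B from filter_subset _ _) fun p hp hpn ↦ by
      rw [chi_eq_zero (not_lt.1 fun h ↦ hpn ((mem_inner emb B).2 ⟨hp, h⟩)), mul_zero]]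
    rw [← sum_fiberwise_of_maps_to (g := fun p ↦ (inner emb B y).filter (Near p))
      (t := clusters emb B y) fun p hp ↦ mem_image_of_mem _ hp]
    refine sum_congr rfl fun K hK ↦ sum_congr ?_ fun _ _ ↦ rfl
    obtain ⟨p0, hp0, rfl⟩ := mem_image.1 hK
    ext p
    simp only [mem_filter, and_congr_right_iff]
    intro hp
    have hpo := outer_of_inner emb B hp
    have hp0o := outer_of_inner emb B hp0
    constructor
    · intro h
      have : p0 ∈ (inner emb B y).filter (Near p) := by
        rw [h]; exact mem_filter.2 ⟨hp0, near_self p0⟩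
      exact near_symm (mem_filter.1 this).2
    · intro h
      ext x
      simp only [mem_filter, and_congr_right_iff]
      intro hx
      exact ⟨near_trans hp0o (outer_of_inner emb B hx) h,
        near_trans hpo (outer_of_inner emb B hx) (near_symm h)⟩
  rw [hsum] at hp
  have hL1 : (96 : ℝ) ≤ Lc lam := by rw [hL]; linarith [(Nat.cast_nonneg _ : (0 : ℝ) ≤ lam)]
  calc (Lc lam : ℝ) / 4 ≤ |∑ K ∈ clusters emb B y, ∑ p ∈ K, μ (emb y) p * chi u p| := by
        rw [abs_le] at hp
        exact le_abs.2 (Or.inl (by linarith))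
    _ ≤ _ := abs_sum_le_sum_abs _ _

include hemb hap hE in
lemma variation_le (y : Y) (a : Lt) :
    ∑ K ∈ clusters emb B y, |wt emb μ (y, K) - wt emb μ (next emb act B (y, K) a)| ≤
      2 * ((lam : ℝ) + 2) := by
  classical
  set u := S.code (emb y) with hu
  set u' := S.code (emb (act y a)) with hu'
  set O := B.filter fun p ↦ dist (S.code p) u < Jc lam + 1 with hO
  set z : S.P → ℝ := fun p ↦ μ (emb y) p * chi u p - μ (emb (act y a)) p * chi u' p with hz
  set O' := O.filter fun p ↦ ((inner emb B y).filter (Near p)).Nonempty with hO'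
  set σ : S.P → ℝ := fun p ↦ if p ∈ O' then sg (∑ r ∈ O.filter (Near p), z r) else 0 with hσ
  have hmemO : ∀ {p}, p ∈ O → dist (S.code p) u < Jc lam + 1 := fun h ↦ (mem_filter.1 h).2
  have hsub : inner emb B y ⊆ O := fun p hp ↦
    mem_filter.2 ⟨((mem_inner emb B).1 hp).1, outer_of_inner emb B hp⟩
  -- classes
  have hclass : ∀ p ∈ O, ∀ q ∈ O, Near p q →
      O.filter (Near p) = O.filter (Near q) ∧
        (inner emb B y).filter (Near p) = (inner emb B y).filter (Near q) := by
    intro p hp q hq h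
    constructor <;>
    · ext x
      simp only [mem_filter, and_congr_right_iff]
      intro hx
      have hxo : dist (S.code x) u < Jc lam + 1 := by
        first | exact hmemO hx | exact outer_of_inner emb B hx
      exact ⟨near_trans (hmemO hq) hxo (near_symm h), near_trans (hmemO hp) hxo h⟩
  -- the step on every cluster
  have hstep : ∀ K ∈ clusters emb B y,
      |wt emb μ (y, K) - wt emb μ (next emb act B (y, K) a)| ≤
        ∑ p ∈ O'.filter (fun p ↦ (inner emb B y).filter (Near p) = K), σ p * z p := by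
    intro K hK
    obtain ⟨p0, hp0, rfl⟩ := mem_image.1 hK
    have hfib : O'.filter (fun p ↦ (inner emb B y).filter (Near p) =
        (inner emb B y).filter (Near p0)) = O.filter (Near p0) := by
      ext p
      simp only [hO', mem_filter]
      constructor
      · rintro ⟨⟨hp, -⟩, h⟩
        have : p0 ∈ (inner emb B y).filter (Near p) := by
          rw [h]; exact mem_filter.2 ⟨hp0, near_self p0⟩
        exact ⟨hp, near_symm (mem_filter.1 this).2⟩
      · rintro ⟨hp, h⟩
        exact ⟨⟨hp, p0, mem_filter.2 ⟨hp0, near_symm h⟩⟩,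
          (hclass p hp p0 (hsub hp0) (near_symm h)).2⟩
    rw [hfib]
    have hσc : ∀ p ∈ O.filter (Near p0), σ p = sg (∑ r ∈ O.filter (Near p0), z r) := by
      intro p hp
      obtain ⟨hp, h⟩ := mem_filter.1 hp
      have hpO' : p ∈ O' := mem_filter.2 ⟨hp, p0, mem_filter.2 ⟨hp0, near_symm h⟩⟩
      simp only [hσ, if_pos hpO', (hclass p hp p0 (hsub hp0) (near_symm h)).1]
    rw [sum_congr rfl fun p hp ↦ congr_arg (· * z p) (hσc p hp), ← mul_sum, sg_mul, hz,
      sum_sub_distrib]
    refine (abs_abs_sub_abs_le_abs_sub _ _).trans (le_of_eq ?_)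
    congr 2
    · refine sum_subset (filter_subset_filter _ hsub) fun p hp hpn ↦ ?_
      obtain ⟨hp, h⟩ := mem_filter.1 hp
      rw [chi_eq_zero (not_lt.1 fun hlt ↦ hpn (mem_filter.2
        ⟨(mem_inner emb B).2 ⟨(mem_filter.1 hp).1, hlt⟩, h⟩)), mul_zero]
    · simp only [next]
      refine sum_subset ?_ fun p hp hpn ↦ ?_
      · intro p hp
        obtain ⟨hp, p1, hp1, h1⟩ := mem_filter.1 hp
        obtain ⟨hp1, h0⟩ := mem_filter.1 hp1
        have hpo := outer_of_inner_step emb act B hemb hp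
        exact mem_filter.2 ⟨mem_filter.2 ⟨((mem_inner emb B).1 hp).1, hpo⟩,
          near_trans (outer_of_inner emb B hp0) hpo h0 h1⟩
      · obtain ⟨hp, h⟩ := mem_filter.1 hp
        rw [chi_eq_zero (not_lt.1 fun hlt ↦ hpn (mem_filter.2
          ⟨(mem_inner emb B).2 ⟨(mem_filter.1 hp).1, hlt⟩, p0,
            mem_filter.2 ⟨hp0, near_self p0⟩, h⟩)), mul_zero]
  refine (sum_le_sum hstep).trans ?_
  rw [sum_fiberwise_of_maps_to (fun p hp ↦ ?_)]
  swap
  · obtain ⟨hp, p1, hp1⟩ := mem_filter.1 hp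
    obtain ⟨hp1, h⟩ := mem_filter.1 hp1
    exact mem_image.2 ⟨p1, hp1, (hclass p1 (hsub hp1) p hp (near_symm h)).2⟩
  -- the two test functions
  have hσ0 : ∀ p, p ∉ O' → σ p = 0 := fun p hp ↦ if_neg hp
  have hσ1 : ∀ p, |σ p| ≤ 1 := fun p ↦ by
    simp only [hσ]; split_ifs <;> simp [abs_sg]
  obtain ⟨hL, hA, hJA, hLJ, -⟩ := consts lam
  set k : ℝ := (Lc lam : ℝ) / (2 * Jc lam) with hk
  have hk0 : 0 ≤ k := by positivity
  have hchid : ∀ p q : S.P, |chi u p - chi u q| ≤ dist p q := fun p q ↦ by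
    refine (abs_chi_sub_le u u p q).trans ?_
    refine (mul_le_mul_of_nonneg_left ((abs_dist_sub_le _ _ _).trans (code_dist_le_dist p q))
      hk0).trans (mul_le_of_le_one_left dist_nonneg (by linarith))
  have hf1 : ∀ p ∈ B, ∀ q ∈ B, |σ p * chi u p - σ q * chi u q| ≤ 1 * dist p q := by
    intro p hp q hq
    rw [one_mul]
    by_cases hpq : p ∈ O ∧ q ∈ O
    · by_cases hn : Near p q
      · have : σ p = σ q := by
          have he := hclass p hpq.1 q hpq.2 hn
          simp only [hσ, hO', mem_filter, hpq.1, hpq.2, true_and, he.1, he.2]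
        rw [this, ← mul_sub, abs_mul]
        exact (mul_le_of_le_one_left (abs_nonneg _) (hσ1 q)).trans (hchid p q)
      · refine le_trans ?_ (le_dd_of_lt_gd (hLJ.trans (not_le.1 hn).le))
        refine (abs_sub _ _).trans ?_
        rw [abs_mul, abs_mul, abs_of_nonneg (chi_nonneg u p), abs_of_nonneg (chi_nonneg u q)]
        linarith [mul_le_of_le_one_left (chi_nonneg u p) (hσ1 p),
          mul_le_of_le_one_left (chi_nonneg u q) (hσ1 q), chi_le u p, chi_le u q]
    · have hout : ∀ r ∈ B, r ∉ O → chi u r = 0 := fun r hr hn ↦ chi_eq_zero <| by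
        by_contra h
        exact hn (mem_filter.2 ⟨hr, (not_le.1 h).trans (lt_add_one _)⟩)
      rcases not_and_or.1 hpq with h | h
      · have := hchid p q
        rw [hout p hp h, zero_sub, abs_neg] at this
        rw [hout p hp h, mul_zero, zero_sub, abs_neg, abs_mul]
        exact (mul_le_of_le_one_left (abs_nonneg _) (hσ1 q)).trans this
      · have := hchid p q
        rw [hout q hq h, sub_zero] at this
        rw [hout q hq h, mul_zero, sub_zero, abs_mul]
        exact (mul_le_of_le_one_left (abs_nonneg _) (hσ1 p)).trans this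
  have hb2 : ∀ p : S.P, |σ p * (chi u p - chi u' p)| ≤ k := fun p ↦ by
    rw [abs_mul]
    refine (mul_le_of_le_one_left (abs_nonneg _) (hσ1 p)).trans ((abs_chi_sub_le u u' p p).trans ?_)
    refine mul_le_of_le_one_right hk0 ?_
    rw [dist_comm _ u, dist_comm _ u']
    exact (abs_dist_sub_le _ _ _).trans (code_step emb act hemb y a)
  have hf2 : ∀ p ∈ B, ∀ q ∈ B, |σ p * (chi u p - chi u' p) - σ q * (chi u q - chi u' q)| ≤
      2 * k * dist p q := by
    intro p _ q _
    rcases eq_or_ne p q with rfl | hne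
    · simp
    · refine ((abs_sub _ _).trans (add_le_add (hb2 p) (hb2 q))).trans ?_
      rw [← two_mul]
      exact le_mul_of_one_le_right (by positivity) (one_le_dd hne)
  have h1 := hap.lip (emb y) (emb (act y a)) _ 1 zero_le_one hf1
  obtain ⟨e, -, -, h2⟩ := pairing hap hE (emb (act y a)) _ (2 * k) (by positivity) hf2
  have hd : dist (emb y) (emb (act y a)) ≤ 1 := by
    rw [hemb]
    exact (dd_le_gd _ _).trans (by exact_mod_cast gd_le_word (emb y) [a])
  have hsum : ∑ p ∈ O', σ p * z p =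
      (∑ p ∈ B, μ (emb y) p * (σ p * chi u p) - ∑ p ∈ B, μ (emb (act y a)) p * (σ p * chi u p)) +
        ∑ p ∈ B, μ (emb (act y a)) p * (σ p * (chi u p - chi u' p)) := by
    rw [← sum_sub_distrib, ← sum_add_distrib]
    rw [sum_subset ((filter_subset _ _).trans (filter_subset _ _) : O' ⊆ B)
      fun p _ hp ↦ by rw [hσ0 p hp, zero_mul]]
    exact sum_congr rfl fun p _ ↦ by simp only [hz]; ring
  rw [hsum]
  have h3 := hb2 e
  have h4 : (lam : ℝ) * dist (emb y) (emb (act y a)) ≤ lam := mul_le_of_le_one_right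
    (Nat.cast_nonneg _) hd
  rw [mul_assoc, hA] at h2
  rw [abs_le] at h1 h2 h3
  linarith

include hemb hap hE in
open Classical in
/-- The core: clusters with a colour witness, in which at least three directions continue. -/
theorem exists_core [Fintype Y] [Nonempty Y] (hback : ∀ y a, act (act y a) (flipL a) = y) :
    ∃ (W : Finset (Y × Finset S.P)) (q : Y × Finset S.P → S.P), W.Nonempty ∧
      (∀ w ∈ W, S.col (q w) = S.col (emb w.1) ∧ ∃ p ∈ B, S.gd p (q w) < capc lam) ∧
      ∀ w ∈ W, 3 ≤ #{a : Lt | ∃ w' ∈ W, w'.1 = act w.1 a ∧ S.gd (q w) (q w') ≤ 9 * Jc lam} := by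
  classical
  set nd := nodes emb B
  set h : Y × Finset S.P → ℝ := fun w ↦ if w ∈ nd then wt emb μ w else 0 with hh
  have hnext : ∀ w ∈ nd, ∀ a, h (next emb act B w a) = wt emb μ (next emb act B w a) := by
    intro w hw a
    simp only [hh]
    split_ifs with hn
    · rfl
    · have : (next emb act B w a).2 = ∅ :=
        not_nonempty_iff_eq_empty.1 fun hne ↦ hn (next_mem_of_nonempty emb act B hemb hw hne)
      simp [wt, this]
  have hsplit : ∀ F : Y × Finset S.P → ℝ,
      ∑ w ∈ nd, F w = ∑ y, ∑ K ∈ clusters emb B y, F (y, K) := fun F ↦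
    sum_finset_product nd univ (clusters emb B) fun w ↦ by simp [nd, mem_nodes emb B]
  have hmass : ∑ w ∈ nd, h w = ∑ y, ∑ K ∈ clusters emb B y, wt emb μ (y, K) := by
    rw [← hsplit]; exact sum_congr rfl fun w hw ↦ if_pos hw
  have hlow : (Fintype.card Y : ℝ) * (Lc lam / 4) ≤ ∑ w ∈ nd, h w := by
    rw [hmass]
    refine le_trans (le_of_eq ?_) (sum_le_sum fun y _ ↦ mass_le emb B hap hE y)
    simp
  have hvar : (∑ w ∈ nd, ∑ a : Lt, max (h w - h (next emb act B w a)) 0) ≤
      (Fintype.card Y : ℝ) * (Lc lam / 4) := by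
    refine (sum_le_sum fun w hw ↦ sum_le_sum fun a _ ↦
      (max_le (le_abs_self _) (abs_nonneg _) :
        max (h w - h (next emb act B w a)) 0 ≤ |h w - h (next emb act B w a)|)).trans ?_
    rw [sum_comm]
    refine (sum_le_card_nsmul univ _ ((Fintype.card Y : ℝ) * (2 * ((lam : ℝ) + 2))) fun a _ ↦ ?_).trans_eq ?_
    · rw [hsplit]
      refine (sum_le_card_nsmul univ _ (2 * ((lam : ℝ) + 2)) fun y _ ↦ ?_).trans_eq (by simp)
      refine le_trans (le_of_eq (sum_congr rfl fun K hK ↦ ?_))
        (variation_le emb act B hemb hap hE y a)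
      have hw : (y, K) ∈ nd := (mem_nodes emb B).2 hK
      rw [hnext _ hw a]
      simp only [hh, if_pos hw]
    · simp only [nsmul_eq_mul, (consts lam).1, card_univ, Fintype.card_prod, Fintype.card_fin,
        Fintype.card_bool]
      ring
  have hpos : 0 < ∑ w ∈ nd, h w := by
    refine lt_of_lt_of_le ?_ hlow
    have : (0 : ℝ) < Lc lam := by exact_mod_cast Lc_pos lam
    positivity
  obtain ⟨W0, hW0, hW0ne, hbad⟩ := exists_low_boundary (next emb act B) nd h
    (fun w ↦ by simp only [hh]; split_ifs <;> simp [wt]) (fun w hw ↦ if_neg hw)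
    (hvar.trans hlow) hpos
  obtain ⟨W, hW, hWne, hdeg⟩ := exists_branching (next emb act B) W0
    (fun w hw a ha ↦ next_next emb act B hemb hback (hW0 hw) (hW0 ha)) hW0ne hbad
  have hq : ∀ w ∈ nd, ∃ z, S.col z = S.col (emb w.1) ∧ ∀ p ∈ w.2,
      p ∈ B ∧ S.gd p z ≤ 3 * Jc lam + 2 := by
    intro w hw
    obtain ⟨p0, hp0, hK⟩ := mem_image.1 ((mem_nodes emb B).1 hw)
    obtain ⟨z, hz, hzd⟩ := exists_colour ((mem_inner emb B).1 hp0).2
    refine ⟨z, hz, fun p hp ↦ ?_⟩
    rw [← hK, mem_filter] at hp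
    refine ⟨((mem_inner emb B).1 hp.1).1, (gd_triangle p p0 z).trans ?_⟩
    have := hp.2
    unfold Near at this
    rw [gd_comm] at this
    omega
  have : Nonempty S.P := ⟨emb (Classical.arbitrary Y)⟩
  choose! q hq1 hq2 using hq
  refine ⟨W, q, hWne, fun w hw ↦ ?_, fun w hw ↦ (hdeg w hw).trans (card_le_card fun a ha ↦ ?_)⟩
  · obtain ⟨p0, hp0, hK⟩ := mem_image.1 ((mem_nodes emb B).1 (hW0 (hW hw)))
    have hp : p0 ∈ w.2 := by rw [← hK]; exact mem_filter.2 ⟨hp0, near_self p0⟩
    refine ⟨hq1 w (hW0 (hW hw)), p0, ((mem_inner emb B).1 hp0).1, ?_⟩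
    refine lt_of_le_of_lt (hq2 w (hW0 (hW hw)) p0 hp).2 ?_
    have := Jc_pos lam
    unfold capc Rc
    omega
  · simp only [mem_filter, mem_univ, true_and] at ha ⊢
    refine ⟨next emb act B w a, ha, rfl, ?_⟩
    obtain ⟨q0, hq0, hK'⟩ := mem_image.1 ((mem_nodes emb B).1 (hW0 (hW ha)))
    have hq0' : q0 ∈ (next emb act B w a).2 := by rw [← hK']; exact mem_filter.2 ⟨hq0, near_self q0⟩
    have h2 := (hq2 _ (hW0 (hW ha)) q0 hq0').2
    simp only [next, mem_filter] at hq0'
    obtain ⟨-, p, hp, hn⟩ := hq0'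
    have h1 := (hq2 w (hW0 (hW hw)) p hp).2
    have h3 := gd_triangle (q w) p (q (next emb act B w a))
    have h4 := gd_triangle p q0 (q (next emb act B w a))
    have := Jc_pos lam
    have hJ : 6 ≤ Jc lam := by
      obtain ⟨-, -, -, hLJ, -⟩ := consts lam
      unfold Lc at hLJ
      omega
    unfold Near at hn
    rw [gd_comm] at h1
    omega

end Core

end Vale.Agent.P090
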