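import Mathlib
import Vale.Agent.P090.Blocks
import Vale.Agent.P090.Cluster

/-!
No finitely supported measures approximate the identity on the coloured systems, hence the free
space over their disjoint union fails the bounded approximation property.
-/

namespace Vale.Agent.P090

open Finset

/-- A branching core contains a pattern with distinct first coordinates. -/
lemma exists_pattern {lam n : ℕ} {V : Type} (W : Finset V) (y : V → Yb n) (q : V → Pb)
    (hgood : ∀ w ∈ W, (sys lam).col (q w) = (sys lam).col ⟨n, y w⟩ ∧ (q w).1 < n)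
    (hdeg : ∀ w ∈ W, ∃ D : Finset Lt, 3 ≤ D.card ∧ ∀ a ∈ D, ∃ w' ∈ W,
      y w' = actY n (y w) a ∧ q w' ∈ reach mvP (9 * Jc lam) (q w)) :
    ∀ h, ∀ w ∈ W, ∀ back : Lt, ∃ l ∈ pat (actY n) mvP (9 * Jc lam) h (y w, q w),
      (∀ z ∈ l, (sys lam).col z.2 = (sys lam).col ⟨n, z.1⟩ ∧ z.2.1 < n) ∧
      ∃ Z : List (List Lt), l.map Prod.fst = Z.map (fun u ↦ y w * evalW (gs n) u) ∧ Z.Nodup ∧
        ∀ u ∈ Z, Reduced u ∧ u.length ≤ h ∧ u.head? ≠ some back := by
  classical
  intro h
  induction h with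
  | zero =>
    intro w hw back
    refine ⟨[(y w, q w)], by simp [pat], by simpa using hgood w hw, [[]], by simp [evalW], by simp,
      ?_⟩
    simp [Reduced]
  | succ h ih =>
    intro w hw back
    obtain ⟨D, hD, hDn⟩ := hdeg w hw
    have h2 : 1 < (D.erase back).card := by
      have := Finset.pred_card_le_card_erase (a := back) (s := D)
      omega
    obtain ⟨a, ha, b, hb, hab⟩ := one_lt_card.1 h2
    obtain ⟨ha0, ha⟩ := mem_erase.1 ha
    obtain ⟨hb0, hb⟩ := mem_erase.1 hb
    obtain ⟨wa, hwa, hya, hqa⟩ := hDn a ha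
    obtain ⟨wb, hwb, hyb, hqb⟩ := hDn b hb
    obtain ⟨la, hla, hlca, Za, hZa, hna, hua⟩ := ih wa hwa (flipL a)
    obtain ⟨lb, hlb, hlcb, Zb, hZb, hnb, hub⟩ := ih wb hwb (flipL b)
    refine ⟨(y w, q w) :: (la ++ lb), ?_, ?_, [] :: (Za.map (List.cons a) ++ Zb.map (List.cons b)),
      ?_, ?_, ?_⟩
    · simp only [pat, mem_image, mem_product, mem_biUnion]
      refine ⟨(la, lb), ⟨⟨(y wa, q wa), ?_, hla⟩, (y wb, q wb), ?_, hlb⟩, rfl⟩
      · simp only [steps, mem_biUnion, mem_image]
        exact ⟨a, mem_univ _, q wa, hqa, by rw [hya]⟩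
      · simp only [steps, mem_biUnion, mem_image]
        exact ⟨b, mem_univ _, q wb, hqb, by rw [hyb]⟩
    · intro z hz
      simp only [List.mem_cons, List.mem_append] at hz
      rcases hz with rfl | hz | hz
      exacts [hgood w hw, hlca z hz, hlcb z hz]
    · simp only [List.map_cons, List.map_append, List.map_map, hZa, hZb, hya, hyb]
      simp [Function.comp_def, evalW, actY, mul_assoc]
    · rw [List.nodup_cons, List.nodup_append]
      refine ⟨by simp, hna.map (List.cons_injective), hnb.map (List.cons_injective), ?_⟩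
      simp only [List.mem_map]
      rintro _ ⟨u, -, rfl⟩ _ ⟨u', -, rfl⟩ e
      exact hab (List.cons.inj e).1
    · intro u hu
      simp only [List.mem_cons, List.mem_append, List.mem_map] at hu
      rcases hu with rfl | ⟨u, hu, rfl⟩ | ⟨u, hu, rfl⟩
      · simp [Reduced]
      · obtain ⟨hr, hl, hh⟩ := hua u hu
        refine ⟨?_, by simpa using hl, by simpa using ha0⟩
        rw [Reduced, List.isChain_cons]
        exact ⟨fun x hx e ↦ hh (e ▸ hx), hr⟩
      · obtain ⟨hr, hl, hh⟩ := hub u hu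
        refine ⟨?_, by simpa using hl, by simpa using hb0⟩
        rw [Reduced, List.isChain_cons]
        exact ⟨fun x hx e ↦ hh (e ▸ hx), hr⟩

/-- Some finite set of points admits no approximating measures. -/
theorem not_approx (lam : ℕ) : ∃ E : Finset (sys lam).P, ∀ (B : Finset (sys lam).P)
    (μ : (sys lam).P → (sys lam).P → ℝ), ¬ Approx (lam : ℝ) E B μ := by
  classical
  obtain ⟨E, hE⟩ := exists_reps (sys lam)
  refine ⟨E, fun B μ hap ↦ ?_⟩
  set n : ℕ := B.sup (fun p : Pb ↦ p.1) + 1 with hn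
  obtain ⟨W, q, hW, hgood, hdeg⟩ := exists_core (S := sys lam) (fun y : Yb n ↦ (⟨n, y⟩ : Pb))
    (actY n) B (fun y a ↦ rfl) hap hE (actY_back n)
  have hblock : ∀ {p p' : Pb}, (sys lam).gd p p' < capc lam → p'.1 = p.1 := by
    intro p p' h
    obtain ⟨w, -, rfl⟩ := exists_word h
    obtain ⟨m, y⟩ := p
    change (move mvP ⟨m, y⟩ w).1 = m
    rw [move_mvP]
  have hgood' : ∀ w ∈ W, (sys lam).col (q w) = (sys lam).col ⟨n, w.1⟩ ∧ (q w : Pb).1 < n := by
    intro w hw
    obtain ⟨hc, p, hp, hd⟩ := hgood w hw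
    refine ⟨hc, ?_⟩
    rw [hblock hd, hn]
    exact Nat.lt_succ_of_le (le_sup (f := fun p : Pb ↦ p.1) hp)
  have hdeg' : ∀ w ∈ W, ∃ D : Finset Lt, 3 ≤ D.card ∧ ∀ a ∈ D, ∃ w' ∈ W,
      w'.1 = actY n w.1 a ∧ (q w' : Pb) ∈ reach mvP (9 * Jc lam) (q w) := by
    intro w hw
    refine ⟨_, hdeg w hw, fun a ha ↦ ?_⟩
    simp only [mem_filter, mem_univ, true_and] at ha
    obtain ⟨w', hw', hy, hd⟩ := ha
    refine ⟨w', hw', hy, ?_⟩
    obtain ⟨u, hu, he⟩ := exists_word (lt_of_le_of_lt hd (by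
      have := Jc_pos lam
      unfold capc Rc
      omega))
    rw [← he]
    exact reach_mono mvP (hu ▸ hd) _ (move_mem_reach mvP _ u)
  obtain ⟨w, hw⟩ := hW
  obtain ⟨l, hl, hlc, Z, hZ, hZn, hZr⟩ :=
    exists_pattern W (fun w ↦ w.1) q hgood' hdeg' (gs n) w hw (0, true)
  have hnd : (l.map Prod.fst).Nodup := by
    rw [hZ]
    refine hZn.map_on fun u hu u' hu' e ↦ ?_
    exact evalW_inj u u' (hZr u hu).1 (hZr u' hu').1 (hZr u hu).2.1 (hZr u' hu').2.1
      (mul_left_cancel e)
  have hlP : l ∈ blockPats lam n := by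
    simp only [blockPats, mem_biUnion]
    exact ⟨(w.1, q w), mem_product.2 ⟨mem_univ _, mem_earlier.2 (hgood' w hw).2⟩, hl⟩
  obtain ⟨z, hz, h⟩ := lab_avoids lam n l hlP hnd fun z hz ↦ (hlc z hz).2
  exact h (congr_arg Prod.snd (hlc z hz).1).symm

/-- The space: the disjoint union of all the coloured systems. -/
abbrev Space : Type := Σ lam : ℕ, (sys lam).P

noncomputable instance : MetricSpace Space := Metric.Sigma.metricSpace

/-- The base point. -/
def base : Space := ⟨0, (⟨0, 1⟩ : Pb)⟩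

lemma dist_sigma_same {lam : ℕ} (x y : (sys lam).P) :
    dist (⟨lam, x⟩ : Space) ⟨lam, y⟩ = dist x y := Metric.Sigma.dist_same _ _ _

lemma dist_sigma_ne {i j : ℕ} (h : i ≠ j) (x : (sys i).P) (y : (sys j).P) :
    dist (⟨i, x⟩ : Space) ⟨j, y⟩ =
      dist x (Nonempty.some ⟨x⟩) + 1 + dist (Nonempty.some ⟨y⟩) y :=
  Metric.Sigma.dist_ne h _ _

lemma one_le_dist {x y : Space} (h : x ≠ y) : 1 ≤ dist x y := by
  obtain ⟨i, x⟩ := x
  obtain ⟨j, y⟩ := y
  rcases eq_or_ne i j with rfl | hij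
  · rw [dist_sigma_same]
    exact one_le_dd fun e ↦ h (by rw [e])
  · exact Metric.Sigma.one_le_dist_of_ne (E := fun lam ↦ (sys lam).P) hij x y

instance (lam : ℕ) : Nonempty (sys lam).P := ⟨(⟨0, 1⟩ : Pb)⟩

open Classical in
/-- The retraction onto one system. -/
noncomputable def retract (lam : ℕ) (p : Space) : (sys lam).P :=
  if h : p.1 = lam then h ▸ p.2 else Nonempty.some inferInstance

lemma retract_same (lam : ℕ) (x : (sys lam).P) : retract lam ⟨lam, x⟩ = x := by
  simp [retract]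

lemma retract_ne {lam i : ℕ} (h : i ≠ lam) (x : (sys i).P) :
    retract lam ⟨i, x⟩ = Nonempty.some inferInstance := by
  simp [retract, h]

lemma retract_lipschitz (lam : ℕ) (p p' : Space) :
    dist (retract lam p) (retract lam p') ≤ dist p p' := by
  obtain ⟨i, x⟩ := p
  obtain ⟨j, y⟩ := p'
  rcases eq_or_ne i lam with rfl | hi <;> rcases eq_or_ne j i with rfl | hj
  · simp only [retract_same, dist_sigma_same, le_refl]
  · rw [retract_same, retract_ne hj, dist_sigma_ne (Ne.symm hj)]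
    linarith [dist_nonneg (x := Nonempty.some (⟨y⟩ : Nonempty (sys j).P)) (y := y)]
  · rw [retract_ne hi, retract_ne hi, dist_self]
    exact dist_nonneg
  · rcases eq_or_ne j lam with rfl | hj'
    · rw [retract_same, retract_ne hi, dist_sigma_ne hi]
      linarith [dist_nonneg (x := x) (y := Nonempty.some (⟨x⟩ : Nonempty (sys i).P))]
    · rw [retract_ne hi, retract_ne hj', dist_self]
      exact dist_nonneg

/-- The free space over the union fails the bounded approximation property. -/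
theorem space_not_bap : ¬ FreeHasBAP Space base := by
  intro hB
  obtain ⟨lam, hlam⟩ := approx_of_freeHasBAP hB
  obtain ⟨E, hE⟩ := not_approx lam
  have hbd : ∃ D, ∀ x : (sys lam).P, dist (⟨lam, x⟩ : Space) base ≤ D := by
    obtain ⟨x0⟩ : Nonempty (sys lam).P := inferInstance
    refine ⟨(Lc lam : ℝ) + Rc lam + dist (⟨lam, x0⟩ : Space) base, fun x ↦ ?_⟩
    refine (dist_triangle _ (⟨lam, x0⟩ : Space) _).trans (add_le_add ?_ le_rfl)
    rw [dist_sigma_same]
    exact dist_le_bound x x0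
  obtain ⟨B, μ, h⟩ := hlam (sys lam).P (fun x ↦ ⟨lam, x⟩) (retract lam) (retract_lipschitz lam)
    (retract_same lam) (fun a b ↦ (dist_sigma_same a b).le) hbd E
  exact hE B μ h

end Vale.Agent.P090
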